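import Vale.Agent.GS.Tensor

set_option autoImplicit false

namespace Vale.Agent.GS

variable {ι : Type} [Fintype ι] [DecidableEq ι]

/-- Complement of all bits. -/
def neg (x : ι → Bool) : ι → Bool := fun i => !(x i)

omit [Fintype ι] [DecidableEq ι] in
theorem neg_neg (x : ι → Bool) : neg (neg x) = x := by
  funext i; simp [neg]

/-- Complement of all bits as an equivalence. -/
def negEquiv (ι : Type) : (ι → Bool) ≃ (ι → Bool) :=
  ⟨neg, neg, neg_neg, neg_neg⟩

/-- Adding one bit. -/
def join (b : Bool) (x : ι → Bool) : Option ι → Bool := fun o => o.elim b x

/-- The balancing of `f`: one new variable, `f'(x, false) = f x`, `f'(x, true) = ¬ f (¬ x)`. -/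
def balance (f : (ι → Bool) → Bool) : (Option ι → Bool) → Bool :=
  fun y => if y none then !(f (neg (fun i => y (some i)))) else f (fun i => y (some i))

theorem sgn_not (b : Bool) : sgn (!b) = - sgn b := by
  cases b <;> simp [sgn]

theorem sgn_false : sgn false = 1 := by simp [sgn]

theorem sgn_true : sgn true = -1 := by simp [sgn]

/-- Averages over the cube with one more variable. -/
theorem avg_option (F : (Option ι → Bool) → ℝ) :
    avg F = (avg (fun x : ι → Bool => F (join false x)) + avg (fun x : ι → Bool => F (join true x))) / 2 := by
  have e : (Bool × (ι → Bool)) ≃ (Option ι → Bool) :=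
    (Equiv.piOptionEquivProd (α := ι) (β := fun _ => Bool)).symm
  have hc : (Fintype.card (Option ι → Bool) : ℝ) = 2 * (Fintype.card (ι → Bool) : ℝ) := by
    have h1 := Fintype.card_congr e
    rw [Fintype.card_prod, Fintype.card_bool] at h1
    rw [← h1]
    push_cast
    ring
  have hs : ∑ y, F y = ∑ x : ι → Bool, F (join false x) + ∑ x : ι → Bool, F (join true x) := by
    have h2 : ∑ y, F y = ∑ p : Bool × (ι → Bool), F (join p.1 p.2) := by
      refine (Fintype.sum_equiv (Equiv.piOptionEquivProd (α := ι) (β := fun _ => Bool)).symm _ _ ?_).symm
      rintro ⟨b, x⟩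
      congr 1
      funext o
      cases o <;> rfl
    rw [h2, Fintype.sum_prod_type]
    simp [add_comm]
  unfold avg
  rw [hs, hc]
  have h0 : (Fintype.card (ι → Bool) : ℝ) ≠ 0 := by exact_mod_cast Fintype.card_ne_zero
  field_simp

theorem avg_neg (F : (ι → Bool) → ℝ) : avg (fun x => F (neg x)) = avg F :=
  avg_equiv (negEquiv ι) F

theorem balance_false (f : (ι → Bool) → Bool) (x : ι → Bool) :
    sgn (balance f (join false x)) = sgn (f x) := by
  simp [balance, join]

theorem balance_true (f : (ι → Bool) → Bool) (x : ι → Bool) :
    sgn (balance f (join true x)) = - sgn (f (neg x)) := by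
  simp [balance, join, sgn_not]

theorem balance_balanced (f : (ι → Bool) → Bool) : Balanced (balance f) := by
  unfold Balanced
  rw [avg_option]
  simp only [balance_false, balance_true]
  have h1 : avg (fun x : ι → Bool => - sgn (f (neg x))) = (-1) * avg (fun x : ι → Bool => sgn (f (neg x))) := by
    rw [← avg_smul]
    congr 1
    funext x
    ring
  rw [h1, avg_neg (fun x => sgn (f x))]
  ring

theorem sum_sgn_neg (x : ι → Bool) : ∑ i, sgn (neg x i) = - ∑ i, sgn (x i) := by
  rw [← Finset.sum_neg_distrib]
  exact Finset.sum_congr rfl (fun i _ => sgn_not (x i))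

theorem balance_level (f : (ι → Bool) → Bool) :
    levelOneSum (balance f) = avg (fun x : ι → Bool => sgn (f x)) + levelOneSum f := by
  unfold levelOneSum
  rw [avg_option]
  have e1 : (fun x : ι → Bool => sgn (balance f (join false x)) * ∑ o, sgn (join false x o)) =
      fun x => sgn (f x) + sgn (f x) * ∑ i, sgn (x i) := by
    funext x
    rw [balance_false, Fintype.sum_option]
    simp only [join, Option.elim_none, Option.elim_some]
    rw [sgn_false]
    ring
  have e2 : (fun x : ι → Bool => sgn (balance f (join true x)) * ∑ o, sgn (join true x o)) =
      fun x => (fun w : ι → Bool => sgn (f w) + sgn (f w) * ∑ i, sgn (w i)) (neg x) := by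
    funext x
    rw [balance_true, Fintype.sum_option]
    simp only [join, Option.elim_none, Option.elim_some]
    rw [sgn_true, sum_sgn_neg]
    ring
  rw [e1, e2, avg_neg (fun w : ι → Bool => sgn (f w) + sgn (f w) * ∑ i, sgn (w i))]
  rw [avg_add]
  ring

omit [Fintype ι] in
theorem chi_neg (S : Finset ι) (x : ι → Bool) : chi S (neg x) = (-1) ^ S.card * chi S x := by
  unfold chi
  have : ∀ i ∈ S, sgn (neg x i) = (-1) * sgn (x i) := by
    intro i _
    simp [neg, sgn_not]
  rw [Finset.prod_congr rfl this, Finset.prod_mul_distrib, Finset.prod_const]

omit [Fintype ι] in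
/-- Degree bound for the balancing: the even part gets the new variable, the odd part does not. -/
theorem balance_deg {f : (ι → Bool) → Bool} {d : ℕ} (hf : DegLE f d) :
    DegLE (balance f) (2 * (d / 2) + 1) := by
  have key : ∀ G : (ι → Bool) → ℝ, G ∈ P ι d →
      (fun y : Option ι → Bool =>
        (1 + sgn (y none)) / 2 * G (fun i => y (some i)) -
          (1 - sgn (y none)) / 2 * G (neg (fun i => y (some i)))) ∈ P (Option ι) (2 * (d / 2) + 1) := by
    intro G hG
    unfold P at hG
    induction hG using Submodule.span_induction with
    | mem g' hg' =>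
        obtain ⟨S, hS, rfl⟩ := hg'
        rcases Nat.even_or_odd S.card with hpar | hpar
        · have : (fun y : Option ι → Bool =>
              (1 + sgn (y none)) / 2 * chi S (fun i => y (some i)) -
                (1 - sgn (y none)) / 2 * chi S (neg (fun i => y (some i)))) =
              chi (insert none (S.map Function.Embedding.some)) := by
            funext y
            rw [chi_neg, hpar.neg_one_pow]
            unfold chi
            rw [Finset.prod_insert (by simp), Finset.prod_map]
            simp only [Function.Embedding.some_apply]
            ring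
          rw [this]
          apply chi_mem
          rw [Finset.card_insert_of_notMem (by simp), Finset.card_map]
          obtain ⟨k, hk⟩ := hpar
          omega
        · have : (fun y : Option ι → Bool =>
              (1 + sgn (y none)) / 2 * chi S (fun i => y (some i)) -
                (1 - sgn (y none)) / 2 * chi S (neg (fun i => y (some i)))) =
              chi (S.map Function.Embedding.some) := by
            funext y
            rw [chi_neg, hpar.neg_one_pow]
            unfold chi
            rw [Finset.prod_map]
            simp only [Function.Embedding.some_apply]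
            ring
          rw [this]
          apply chi_mem
          rw [Finset.card_map]
          omega
    | zero =>
        have : (fun y : Option ι → Bool =>
              (1 + sgn (y none)) / 2 * (0 : (ι → Bool) → ℝ) (fun i => y (some i)) -
                (1 - sgn (y none)) / 2 * (0 : (ι → Bool) → ℝ) (neg (fun i => y (some i)))) = 0 := by
          funext y; simp
        rw [this]
        exact Submodule.zero_mem _
    | add u v _ _ hu hv =>
        have := Submodule.add_mem _ hu hv
        convert this using 1
        funext y
        simp only [Pi.add_apply]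
        ring
    | smul c u _ hu =>
        have := Submodule.smul_mem _ c hu
        convert this using 1
        funext y
        simp only [Pi.smul_apply, smul_eq_mul]
        ring
  have := key _ hf
  show (fun y => sgn (balance f y)) ∈ P (Option ι) _
  convert this using 1
  funext y
  by_cases hy : y none = true
  · simp [balance, hy, sgn_not, sgn_true]
  · have hy' : y none = false := by simpa using hy
    simp [balance, hy', sgn_false]

/-- The complement-reflection of `f`. -/
def refl (f : (ι → Bool) → Bool) : (ι → Bool) → Bool := fun x => !(f (neg x))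

theorem refl_level (f : (ι → Bool) → Bool) : levelOneSum (refl f) = levelOneSum f := by
  unfold levelOneSum
  have : (fun x : ι → Bool => sgn (refl f x) * ∑ i, sgn (x i)) =
      fun x => (fun w : ι → Bool => sgn (f w) * ∑ i, sgn (w i)) (neg x) := by
    funext x
    simp only [refl, sgn_not]
    rw [sum_sgn_neg]
    ring
  rw [this]
  exact avg_neg (fun w : ι → Bool => sgn (f w) * ∑ i, sgn (w i))

theorem refl_avg (f : (ι → Bool) → Bool) :
    avg (fun x : ι → Bool => sgn (refl f x)) = - avg (fun x : ι → Bool => sgn (f x)) := by
  have h1 : (fun x : ι → Bool => sgn (refl f x)) = fun x => (-1) * (fun w : ι → Bool => sgn (f w)) (neg x) := by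
    funext x
    simp only [refl, sgn_not]
    ring
  rw [h1, avg_smul, avg_neg (fun w : ι → Bool => sgn (f w))]
  ring

omit [Fintype ι] in
theorem refl_deg {f : (ι → Bool) → Bool} {d : ℕ} (hf : DegLE f d) : DegLE (refl f) d := by
  have key : ∀ G : (ι → Bool) → ℝ, G ∈ P ι d → (fun x : ι → Bool => (-1) * G (neg x)) ∈ P ι d := by
    intro G hG
    unfold P at hG
    induction hG using Submodule.span_induction with
    | mem g' hg' =>
        obtain ⟨S, hS, rfl⟩ := hg'
        have : (fun x : ι → Bool => (-1) * chi S (neg x)) = ((-1) * (-1) ^ S.card : ℝ) • chi S := by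
          funext x
          rw [chi_neg]
          simp only [Pi.smul_apply, smul_eq_mul]
          ring
        rw [this]
        exact Submodule.smul_mem _ _ (chi_mem hS)
    | zero =>
        have : (fun x : ι → Bool => (-1 : ℝ) * (0 : (ι → Bool) → ℝ) (neg x)) = 0 := by
          funext x; simp
        rw [this]
        exact Submodule.zero_mem _
    | add u v _ _ hu hv =>
        have := Submodule.add_mem _ hu hv
        convert this using 1
        funext y
        simp only [Pi.add_apply]
        ring
    | smul c u _ hu =>
        have := Submodule.smul_mem _ c hu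
        convert this using 1
        funext y
        simp only [Pi.smul_apply, smul_eq_mul]
        ring
  have := key _ hf
  show (fun x => sgn (refl f x)) ∈ P ι _
  convert this using 1
  funext x
  simp only [refl, sgn_not]
  ring

/-- Without the balance hypothesis, at the price of passing to the next odd degree. -/
theorem weak_implies_general
    (hweak : ∃ C : ℝ, ∀ (n : ℕ) (f : (Fin n → Bool) → Bool) (d : ℕ),
      DegLE f d → levelOneSum f ≤ C * Real.sqrt d)
    {n : ℕ} (f : (Fin n → Bool) → Bool) {d : ℕ} (hd : DegLE f d) :
    levelOneSum f + |avg (fun x : Fin n → Bool => sgn (f x))| ≤ Real.sqrt ((2 * (d / 2) + 1 : ℕ) : ℝ) := by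
  have main : ∀ g : (Fin n → Bool) → Bool, DegLE g d →
      levelOneSum g + avg (fun x : Fin n → Bool => sgn (g x)) ≤ Real.sqrt ((2 * (d / 2) + 1 : ℕ) : ℝ) := by
    intro g hg
    have h1 := weak_implies_strong hweak
      (reindex (finSuccEquiv n).symm (balance g))
      (reindex_balanced _ (balance_balanced g))
      (reindex_deg _ (balance_deg hg))
    rw [reindex_level, balance_level] at h1
    linarith
  have h1 := main f hd
  have h2 := main (refl f) (refl_deg hd)
  rw [refl_level, refl_avg] at h2
  rcases abs_cases (avg (fun x : Fin n → Bool => sgn (f x))) with ⟨h, -⟩ | ⟨h, -⟩ <;> rw [h] <;> linarith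

end Vale.Agent.GS
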