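import Mathlib

set_option autoImplicit false

/-!
# Level-one Fourier sums of Boolean functions and tensor powers

Basic definitions for Boolean functions on `{-1,1}^ι`, written with `Bool` coordinates.
-/

namespace Vale.Agent.GS

/-- The sign of a bit: `false` is `1` and `true` is `-1`. -/
noncomputable def sgn (b : Bool) : ℝ := if b then -1 else 1

/-- The character (monomial) `∏_{i ∈ S} x_i`. -/
noncomputable def chi {ι : Type} (S : Finset ι) (x : ι → Bool) : ℝ := ∏ i ∈ S, sgn (x i)

/-- `DegLE f d`: the multilinear polynomial of the Boolean function `f` has degree at most `d`,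
that is, `f` (as a `±1`-valued function) is a real combination of monomials of degree at most `d`. -/
def DegLE {ι : Type} (f : (ι → Bool) → Bool) (d : ℕ) : Prop :=
  (fun x => sgn (f x)) ∈ Submodule.span ℝ {g : (ι → Bool) → ℝ | ∃ S : Finset ι, S.card ≤ d ∧ g = chi S}

/-- The average of a function over a finite type. -/
noncomputable def avg {α : Type} [Fintype α] (F : α → ℝ) : ℝ := (∑ a, F a) / Fintype.card α

/-- The level-one Fourier sum `∑_i f̂({i}) = E[f(X)(X_1 + ... + X_n)]`. -/
noncomputable def levelOneSum {ι : Type} [Fintype ι] [DecidableEq ι] (f : (ι → Bool) → Bool) : ℝ :=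
  avg (fun x : ι → Bool => sgn (f x) * ∑ i, sgn (x i))

/-- `f` is balanced: `E[f(X)] = 0`. -/
def Balanced {ι : Type} [Fintype ι] [DecidableEq ι] (f : (ι → Bool) → Bool) : Prop :=
  avg (fun x : ι → Bool => sgn (f x)) = 0

end Vale.Agent.GS
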