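import Vale.Agent.GS.Tensor

set_option autoImplicit false

namespace Vale.Agent.GS

/-- The interpolation nodes. -/
noncomputable def th (D k : ℕ) : ℝ := (2 * (k : ℝ) + 1) * Real.pi / (2 * (D : ℝ))

theorem alt_sum_sin {D : ℕ} (hD : 0 < D) (a : ℤ) (ha1 : a < D) (ha2 : -a < D) :
    ∑ k ∈ Finset.range D, (-1 : ℝ) ^ k * Real.sin ((a : ℝ) * th D k) = 0 := by
  have hD' : (0 : ℝ) < D := by exact_mod_cast hD
  set B : ℝ := (a : ℝ) * Real.pi / (2 * (D : ℝ)) with hB
  have hcos : 0 < Real.cos B := by
    apply Real.cos_pos_of_mem_Ioo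
    have h2 : (a : ℝ) < D := by exact_mod_cast ha1
    have h3 : -(a : ℝ) < D := by exact_mod_cast ha2
    have hpi := Real.pi_pos
    constructor
    · rw [hB, lt_div_iff₀ (by positivity)]
      nlinarith
    · rw [hB, div_lt_iff₀ (by positivity)]
      nlinarith
  let G : ℕ → ℝ := fun k => (-1 : ℝ) ^ k * Real.sin ((a : ℝ) * (k : ℝ) * Real.pi / (D : ℝ))
  have hstep : ∀ k, 2 * Real.cos B * ((-1 : ℝ) ^ k * Real.sin ((a : ℝ) * th D k)) = G k - G (k + 1) := by
    intro k
    have e1 : (a : ℝ) * th D k = (a : ℝ) * (k : ℝ) * Real.pi / (D : ℝ) + B := by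
      rw [hB]
      unfold th
      field_simp
      try ring
    have e2 : (a : ℝ) * ((k + 1 : ℕ) : ℝ) * Real.pi / (D : ℝ) =
        (a : ℝ) * (k : ℝ) * Real.pi / (D : ℝ) + B + B := by
      rw [hB]
      push_cast
      field_simp
      try ring
    simp only [G]
    rw [e1, e2, pow_succ]
    set A := (a : ℝ) * (k : ℝ) * Real.pi / (D : ℝ)
    have e3 : Real.sin (A + B + B) = Real.sin (A + B) * Real.cos B + Real.cos (A + B) * Real.sin B :=
      Real.sin_add _ _
    have e4 : Real.sin A = Real.sin (A + B) * Real.cos B - Real.cos (A + B) * Real.sin B := by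
      have : A = (A + B) - B := by ring
      conv_lhs => rw [this]
      exact Real.sin_sub _ _
    rw [e3, e4]
    ring
  have hsum : 2 * Real.cos B * ∑ k ∈ Finset.range D, (-1 : ℝ) ^ k * Real.sin ((a : ℝ) * th D k) = 0 := by
    rw [Finset.mul_sum, Finset.sum_congr rfl (fun k _ => hstep k), Finset.sum_range_sub']
    have g0 : G 0 = 0 := by simp [G]
    have gD : G D = 0 := by
      simp only [G]
      have : (a : ℝ) * (D : ℝ) * Real.pi / (D : ℝ) = (a : ℝ) * Real.pi := by field_simp
      rw [this, Real.sin_int_mul_pi]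
      simp
    rw [g0, gD]
    simp
  have hne : 2 * Real.cos B ≠ 0 := by positivity
  exact (mul_eq_zero.mp hsum).resolve_left hne

theorem sin_shift (x y : ℝ) :
    Real.sin (x + 2 * y) + Real.sin (x - 2 * y) - 2 * Real.sin x = -4 * Real.sin x * Real.sin y ^ 2 := by
  have hc : Real.cos (2 * y) = 1 - 2 * Real.sin y ^ 2 := by
    rw [Real.cos_two_mul]
    have := Real.sin_sq_add_cos_sq y
    linarith
  rw [Real.sin_add, Real.sin_sub, hc]
  ring

theorem alt_sum_pow {D : ℕ} (hD : 0 < D) (v : ℕ) : ∀ (a : ℤ), a + 2 * (v : ℤ) < D → -a + 2 * (v : ℤ) < D →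
    ∑ k ∈ Finset.range D, (-1 : ℝ) ^ k * (Real.sin ((a : ℝ) * th D k) * Real.sin (th D k) ^ (2 * v)) = 0 := by
  induction v with
  | zero =>
      intro a h1 h2
      have := alt_sum_sin hD a (by simpa using h1) (by simpa using h2)
      simpa using this
  | succ v ih =>
      intro a h1 h2
      push_cast at h1 h2
      have f0 := ih a (by omega) (by omega)
      have f1 := ih (a + 2) (by omega) (by omega)
      have f2 := ih (a - 2) (by omega) (by omega)
      have key : ∑ k ∈ Finset.range D, (-1 : ℝ) ^ k *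
            (Real.sin ((a : ℝ) * th D k) * Real.sin (th D k) ^ (2 * (v + 1))) =
          (1 / 4) * (2 * ∑ k ∈ Finset.range D, (-1 : ℝ) ^ k * (Real.sin ((a : ℝ) * th D k) * Real.sin (th D k) ^ (2 * v))
            - ∑ k ∈ Finset.range D, (-1 : ℝ) ^ k * (Real.sin (((a + 2 : ℤ) : ℝ) * th D k) * Real.sin (th D k) ^ (2 * v))
            - ∑ k ∈ Finset.range D, (-1 : ℝ) ^ k * (Real.sin (((a - 2 : ℤ) : ℝ) * th D k) * Real.sin (th D k) ^ (2 * v))) := by
        rw [Finset.mul_sum, ← Finset.sum_sub_distrib, ← Finset.sum_sub_distrib, Finset.mul_sum]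
        refine Finset.sum_congr rfl (fun k _ => ?_)
        have e1 : ((a + 2 : ℤ) : ℝ) * th D k = (a : ℝ) * th D k + 2 * th D k := by
          push_cast
          ring
        have e2 : ((a - 2 : ℤ) : ℝ) * th D k = (a : ℝ) * th D k - 2 * th D k := by
          push_cast
          ring
        have e3 := sin_shift ((a : ℝ) * th D k) (th D k)
        have e4 : 2 * (v + 1) = 2 * v + 2 := by ring
        rw [e1, e2, e4, pow_add]
        linear_combination ((1 / 4) * (-1 : ℝ) ^ k * Real.sin (th D k) ^ (2 * v)) * e3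
      rw [key, f0, f1, f2]
      simp

theorem sin_th_pos {D k : ℕ} (hk : k < D) : 0 < Real.sin (th D k) := by
  have hD : (0 : ℝ) < D := by
    have : 0 < D := by omega
    exact_mod_cast this
  have hk' : (k : ℝ) + 1 ≤ D := by exact_mod_cast hk
  have hpi := Real.pi_pos
  apply Real.sin_pos_of_pos_of_lt_pi
  · unfold th
    positivity
  · unfold th
    rw [div_lt_iff₀ (by positivity)]
    nlinarith

/-- The alternating sum with the squared-sine weights. -/
noncomputable def altC (D : ℕ) (a : ℤ) : ℝ :=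
  ∑ k ∈ Finset.range D, (-1 : ℝ) ^ k * Real.sin ((a : ℝ) * th D k) / Real.sin (th D k) ^ 2

theorem altC_rec {D : ℕ} (hD : 0 < D) (a : ℤ) (h1 : a < D) (h2 : -a < D) :
    altC D (a + 2) + altC D (a - 2) - 2 * altC D a = 0 := by
  have hs := alt_sum_sin hD a h1 h2
  have key : altC D (a + 2) + altC D (a - 2) - 2 * altC D a =
      -4 * ∑ k ∈ Finset.range D, (-1 : ℝ) ^ k * Real.sin ((a : ℝ) * th D k) := by
    unfold altC
    rw [Finset.mul_sum, ← Finset.sum_add_distrib, Finset.mul_sum, ← Finset.sum_sub_distrib]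
    refine Finset.sum_congr rfl (fun k hk => ?_)
    have hpos := sin_th_pos (Finset.mem_range.mp hk)
    have hne : Real.sin (th D k) ^ 2 ≠ 0 := by positivity
    have e1 : ((a + 2 : ℤ) : ℝ) * th D k = (a : ℝ) * th D k + 2 * th D k := by
      push_cast
      ring
    have e2 : ((a - 2 : ℤ) : ℝ) * th D k = (a : ℝ) * th D k - 2 * th D k := by
      push_cast
      ring
    have e3 := sin_shift ((a : ℝ) * th D k) (th D k)
    rw [e1, e2]
    have e5 : (-1 : ℝ) ^ k * Real.sin ((a : ℝ) * th D k + 2 * th D k) / Real.sin (th D k) ^ 2 +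
        (-1 : ℝ) ^ k * Real.sin ((a : ℝ) * th D k - 2 * th D k) / Real.sin (th D k) ^ 2 -
        2 * ((-1 : ℝ) ^ k * Real.sin ((a : ℝ) * th D k) / Real.sin (th D k) ^ 2) =
        (-1 : ℝ) ^ k * (Real.sin ((a : ℝ) * th D k + 2 * th D k) + Real.sin ((a : ℝ) * th D k - 2 * th D k) -
          2 * Real.sin ((a : ℝ) * th D k)) / Real.sin (th D k) ^ 2 := by
      ring
    rw [e5, e3]
    field_simp
  rw [key, hs]
  simp

theorem altC_neg (D : ℕ) (a : ℤ) : altC D (-a) = - altC D a := by
  unfold altC
  rw [← Finset.sum_neg_distrib]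
  refine Finset.sum_congr rfl (fun k _ => ?_)
  push_cast
  rw [neg_mul, Real.sin_neg]
  ring

theorem altC_odd {D : ℕ} (hD : 0 < D) :
    ∀ j : ℕ, 2 * j + 1 ≤ D → altC D (2 * (j : ℤ) + 1) = (2 * (j : ℝ) + 1) * altC D 1 := by
  intro j
  induction j using Nat.strong_induction_on with
  | _ j ih =>
    match j, ih with
    | 0, _ =>
        intro _
        simp
    | 1, _ =>
        intro h
        have h3 := altC_rec hD 1 (by omega) (by omega)
        have e1 : (1 : ℤ) + 2 = 2 * ((1 : ℕ) : ℤ) + 1 := by norm_num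
        have e2 : (1 : ℤ) - 2 = -1 := by norm_num
        rw [e1, e2, altC_neg] at h3
        push_cast at h3 ⊢
        linarith
    | (j + 2), ih =>
        intro h
        have i1 := ih j (by omega) (by omega)
        have i2 := ih (j + 1) (by omega) (by omega)
        have h3 := altC_rec hD (2 * ((j + 1 : ℕ) : ℤ) + 1) (by push_cast; omega) (by push_cast; omega)
        have e1 : 2 * ((j + 1 : ℕ) : ℤ) + 1 + 2 = 2 * ((j + 2 : ℕ) : ℤ) + 1 := by
          push_cast
          ring
        have e2 : 2 * ((j + 1 : ℕ) : ℤ) + 1 - 2 = 2 * (j : ℤ) + 1 := by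
          push_cast
          ring
        rw [e1, e2, i1, i2] at h3
        push_cast at h3 ⊢
        linarith

/-- The total weight. -/
noncomputable def altW (D : ℕ) : ℝ := ∑ k ∈ Finset.range D, 1 / Real.sin (th D k) ^ 2

theorem altW_pos {D : ℕ} (hD : 0 < D) : 0 < altW D := by
  unfold altW
  apply Finset.sum_pos
  · intro k hk
    have := sin_th_pos (Finset.mem_range.mp hk)
    positivity
  · exact ⟨0, Finset.mem_range.mpr hD⟩

theorem altC_top (m : ℕ) : altC (2 * m + 1) (2 * (m : ℤ) + 1) = altW (2 * m + 1) := by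
  unfold altC altW
  refine Finset.sum_congr rfl (fun k _ => ?_)
  have hD : (((2 * m + 1 : ℕ)) : ℝ) ≠ 0 := by positivity
  have e1 : (((2 * (m : ℤ) + 1 : ℤ)) : ℝ) * th (2 * m + 1) k = (k : ℝ) * Real.pi + Real.pi / 2 := by
    unfold th
    push_cast at hD ⊢
    field_simp
    try ring
  rw [e1, Real.sin_add_pi_div_two, Real.cos_nat_mul_pi, ← mul_pow]
  norm_num

theorem altW_eq (m : ℕ) : altW (2 * m + 1) = ((2 * m + 1 : ℕ) : ℝ) * altC (2 * m + 1) 1 := by
  rw [← altC_top, altC_odd (by omega) m (le_refl _)]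
  push_cast
  ring

theorem altC_one_pos (m : ℕ) : 0 < altC (2 * m + 1) 1 := by
  have h1 := altW_pos (D := 2 * m + 1) (by omega)
  rw [altW_eq] at h1
  have h2 : (0 : ℝ) < ((2 * m + 1 : ℕ) : ℝ) := by positivity
  exact (pos_iff_pos_of_mul_pos h1).mp h2

section Cube

variable {ι : Type} [Fintype ι] [DecidableEq ι]

/-- The mean of `g` under the product measure of bias `t`. -/
noncomputable def bias (g : (ι → Bool) → ℝ) (t : ℝ) : ℝ :=
  avg (fun x => g x * ∏ i, (1 + t * sgn (x i)))

/-- The level-one sum of a real function. -/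
noncomputable def lvl (g : (ι → Bool) → ℝ) : ℝ :=
  avg (fun x => g x * ∑ i, sgn (x i))

theorem avg_bool (F : Bool → ℝ) : avg F = (F false + F true) / 2 := by
  simp [avg, Fintype.sum_bool]
  ring

theorem bias_chi (S : Finset ι) (t : ℝ) : bias (chi S) t = t ^ S.card := by
  unfold bias
  have h1 : (fun x : ι → Bool => chi S x * ∏ i, (1 + t * sgn (x i))) =
      fun x => ∏ i, (fun i (b : Bool) => (if i ∈ S then sgn b else 1) * (1 + t * sgn b)) i (x i) := by
    funext x
    show _ = ∏ i, ((if i ∈ S then sgn (x i) else 1) * (1 + t * sgn (x i)))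
    rw [Finset.prod_mul_distrib]
    congr 1
    simp [chi, Finset.prod_ite_mem]
  rw [h1]
  refine (avg_prod (fun i (b : Bool) => (if i ∈ S then sgn b else 1) * (1 + t * sgn b))).trans ?_
  have h2 : ∀ i, avg (fun b : Bool => (if i ∈ S then sgn b else 1) * (1 + t * sgn b)) =
      if i ∈ S then t else 1 := by
    intro i
    rw [avg_bool]
    by_cases hi : i ∈ S
    · simp only [hi, if_true, sgn]
      norm_num
      ring
    · simp only [hi, if_false, sgn]
      norm_num
      try ring
  rw [Finset.prod_congr rfl (fun i _ => h2 i)]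
  simp [Finset.prod_ite_mem]

theorem lvl_chi (S : Finset ι) : lvl (chi S) = if S.card = 1 then 1 else 0 := by
  unfold lvl
  have h1 : (fun x : ι → Bool => chi S x * ∑ i, sgn (x i)) =
      fun x => ∑ i, (fun i (x : ι → Bool) => (∏ k ∈ S, sgn (x k)) * sgn (x i)) i x := by
    funext x
    rw [Finset.mul_sum]
    rfl
  rw [h1, avg_sum]
  have h2 : ∀ i, avg (fun x : ι → Bool => (∏ k ∈ S, sgn (x k)) * sgn (x i)) = if S = {i} then 1 else 0 := by
    intro i
    have := block1 (κ := ι) (α := Bool) sgn sgn avg_sgn_bool avg_sgn_bool S i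
    rw [this, avg_sgn_sq]
  simp only [h2]
  by_cases hc : S.card = 1
  · obtain ⟨a, rfl⟩ := Finset.card_eq_one.mp hc
    rw [if_pos hc, Finset.sum_eq_single a]
    · simp
    · intro b _ hb
      rw [if_neg]
      intro h
      exact hb (Finset.singleton_injective h).symm
    · simp
  · rw [if_neg hc]
    apply Finset.sum_eq_zero
    intro i _
    rw [if_neg]
    intro h
    apply hc
    rw [h]
    simp

theorem avg_mono_le {α : Type} [Fintype α] {F G : α → ℝ} (h : ∀ a, F a ≤ G a) : avg F ≤ avg G := by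
  unfold avg
  exact div_le_div_of_nonneg_right (Finset.sum_le_sum fun a _ => h a) (Nat.cast_nonneg _)

theorem abs_bias_le {g : (ι → Bool) → ℝ} (hg : ∀ x, |g x| ≤ 1) {t : ℝ} (ht : |t| ≤ 1) :
    |bias g t| ≤ 1 := by
  have ht' := abs_le.mp ht
  have hw : ∀ x : ι → Bool, 0 ≤ ∏ i, (1 + t * sgn (x i)) := by
    intro x
    refine Finset.prod_nonneg (fun i _ => ?_)
    cases x i
    · simp only [sgn]
      norm_num
      linarith [ht'.1]
    · simp only [sgn]
      norm_num
      linarith [ht'.2]
  have h1 : avg (fun x : ι → Bool => ∏ i, (1 + t * sgn (x i))) = 1 := by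
    have := bias_chi (∅ : Finset ι) t
    simpa [bias, chi] using this
  rw [abs_le]
  constructor
  · have h2 : avg (fun x : ι → Bool => (-1) * ∏ i, (1 + t * sgn (x i))) ≤ bias g t := by
      refine avg_mono_le (fun x => ?_)
      have := (abs_le.mp (hg x)).1
      nlinarith [hw x]
    rw [avg_smul, h1] at h2
    linarith
  · have h2 : bias g t ≤ avg (fun x : ι → Bool => ∏ i, (1 + t * sgn (x i))) := by
      refine avg_mono_le (fun x => ?_)
      have := (abs_le.mp (hg x)).2
      nlinarith [hw x]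
    rw [h1] at h2
    exact h2

/-- The interpolation functional. -/
noncomputable def psi (D : ℕ) (g : (ι → Bool) → ℝ) : ℝ :=
  ∑ k ∈ Finset.range D, (-1 : ℝ) ^ k * (bias g (Real.sin (th D k)) - bias g (-Real.sin (th D k))) /
    (2 * Real.sin (th D k) ^ 2)

theorem psi_chi (m : ℕ) (S : Finset ι) (hS : S.card ≤ 2 * m + 2) :
    psi (2 * m + 1) (chi S) = altC (2 * m + 1) 1 * lvl (chi S) := by
  rw [lvl_chi]
  unfold psi
  simp only [bias_chi]
  rcases Nat.even_or_odd S.card with hev | hod
  · have hn : S.card ≠ 1 := by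
      intro h
      rw [h] at hev
      exact absurd hev (by decide)
    rw [if_neg hn, mul_zero]
    apply Finset.sum_eq_zero
    intro k _
    rw [hev.neg_pow]
    simp
  · by_cases hn : S.card = 1
    · rw [if_pos hn, mul_one, hn]
      unfold altC
      refine Finset.sum_congr rfl (fun k hk => ?_)
      have hpos := sin_th_pos (Finset.mem_range.mp hk)
      have hne : Real.sin (th (2 * m + 1) k) ≠ 0 := hpos.ne'
      simp only [pow_one, Int.cast_one, one_mul]
      field_simp
      try ring
    · rw [if_neg hn, mul_zero]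
      obtain ⟨w, hw⟩ := hod
      obtain ⟨v, rfl⟩ : ∃ v, w = v + 1 := ⟨w - 1, by omega⟩
      have hs := alt_sum_pow (D := 2 * m + 1) (by omega) v 1 (by push_cast; omega) (by push_cast; omega)
      rw [← hs]
      refine Finset.sum_congr rfl (fun k hk => ?_)
      have hpos := sin_th_pos (Finset.mem_range.mp hk)
      have hne : Real.sin (th (2 * m + 1) k) ≠ 0 := hpos.ne'
      have hodd : Odd S.card := ⟨v + 1, hw⟩
      rw [hodd.neg_pow, hw]
      have e : 2 * (v + 1) + 1 = 2 * v + 3 := by ring
      rw [e]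
      simp only [Int.cast_one, one_mul]
      field_simp
      try ring

theorem psi_eq (m : ℕ) (g : (ι → Bool) → ℝ) (hg : g ∈ P ι (2 * m + 2)) :
    psi (2 * m + 1) g = altC (2 * m + 1) 1 * lvl g := by
  unfold P at hg
  induction hg using Submodule.span_induction with
  | mem g' hg' =>
      obtain ⟨S, hS, rfl⟩ := hg'
      exact psi_chi m S hS
  | zero =>
      simp [psi, bias, lvl, avg]
  | add u v _ _ hu hv =>
      have hb : ∀ t, bias (u + v) t = bias u t + bias v t := by
        intro t
        unfold bias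
        simp only [Pi.add_apply, add_mul]
        exact avg_add _ _
      have hl : lvl (u + v) = lvl u + lvl v := by
        unfold lvl
        simp only [Pi.add_apply, add_mul]
        exact avg_add _ _
      have : psi (2 * m + 1) (u + v) = psi (2 * m + 1) u + psi (2 * m + 1) v := by
        unfold psi
        rw [← Finset.sum_add_distrib]
        refine Finset.sum_congr rfl (fun k _ => ?_)
        rw [hb, hb]
        ring
      rw [this, hu, hv, hl]
      ring
  | smul c u _ hu =>
      have hb : ∀ t, bias (c • u) t = c * bias u t := by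
        intro t
        unfold bias
        simp only [Pi.smul_apply, smul_eq_mul, mul_assoc]
        exact avg_smul _ _
      have hl : lvl (c • u) = c * lvl u := by
        unfold lvl
        simp only [Pi.smul_apply, smul_eq_mul, mul_assoc]
        exact avg_smul _ _
      have : psi (2 * m + 1) (c • u) = c * psi (2 * m + 1) u := by
        unfold psi
        rw [Finset.mul_sum]
        refine Finset.sum_congr rfl (fun k _ => ?_)
        rw [hb, hb]
        ring
      rw [this, hu, hl]
      ring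

theorem psi_le (m : ℕ) {g : (ι → Bool) → ℝ} (hb : ∀ x, |g x| ≤ 1) :
    psi (2 * m + 1) g ≤ altW (2 * m + 1) := by
  unfold psi altW
  refine Finset.sum_le_sum (fun k hk => ?_)
  have hpos := sin_th_pos (Finset.mem_range.mp hk)
  have hs1 : |Real.sin (th (2 * m + 1) k)| ≤ 1 := Real.abs_sin_le_one _
  have hs2 : |-Real.sin (th (2 * m + 1) k)| ≤ 1 := by rwa [abs_neg]
  have h1 := abs_le.mp (abs_bias_le hb hs1)
  have h2 := abs_le.mp (abs_bias_le hb hs2)
  set y := bias g (Real.sin (th (2 * m + 1) k)) with hy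
  set z := bias g (-Real.sin (th (2 * m + 1) k)) with hz
  have hyz : (-1 : ℝ) ^ k * (y - z) ≤ 2 := by
    rcases neg_one_pow_eq_or ℝ k with h | h <;> rw [h] <;> linarith [h1.1, h1.2, h2.1, h2.2]
  have hd : (0 : ℝ) < 2 * Real.sin (th (2 * m + 1) k) ^ 2 := by positivity
  rw [div_le_div_iff₀ hd (by positivity)]
  nlinarith [sq_nonneg (Real.sin (th (2 * m + 1) k))]

/-- Bernstein-type bound on the cube: a real function bounded by one, of degree at most `2 m + 2`,
has level-one sum at most `2 m + 1`. -/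
theorem lvl_le_odd (m : ℕ) {g : (ι → Bool) → ℝ} (hg : g ∈ P ι (2 * m + 2)) (hb : ∀ x, |g x| ≤ 1) :
    lvl g ≤ 2 * (m : ℝ) + 1 := by
  have h1 := psi_le m hb
  rw [psi_eq m g hg, altW_eq] at h1
  have hc := altC_one_pos m
  have h2 : altC (2 * m + 1) 1 * lvl g ≤ altC (2 * m + 1) 1 * (2 * (m : ℝ) + 1) := by
    push_cast at h1
    linarith
  exact le_of_mul_le_mul_left h2 hc

theorem abs_sgn_le (b : Bool) : |sgn b| ≤ 1 := by
  cases b <;> simp [sgn]

/-- For Boolean functions of even degree `2 m + 2` the level-one sum is at most `2 m + 1`. -/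
theorem level_even_degree (m : ℕ) {f : (ι → Bool) → Bool} (hf : DegLE f (2 * m + 2)) :
    levelOneSum f ≤ 2 * (m : ℝ) + 1 :=
  lvl_le_odd m (g := fun x => sgn (f x)) hf (fun x => abs_sgn_le (f x))

end Cube

end Vale.Agent.GS
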