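import Vale.Agent.GS.Bernstein

set_option autoImplicit false

namespace Vale.Agent.GS

section Biased

variable {ι : Type} [Fintype ι] [DecidableEq ι]

/-- Biased monomials. -/
noncomputable def phi (t : ℝ) (T : Finset ι) (x : ι → Bool) : ℝ := ∏ i ∈ T, (sgn (x i) - t)

theorem bias_phi_mul (t : ℝ) (T U : Finset ι) :
    bias (fun x => phi t T x * phi t U x) t = if T = U then (1 - t ^ 2) ^ T.card else 0 := by
  unfold bias
  have h1 : (fun x : ι → Bool => (phi t T x * phi t U x) * ∏ i, (1 + t * sgn (x i))) =
      fun x => ∏ i, (fun i (b : Bool) => (if i ∈ T then sgn b - t else 1) *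
        (if i ∈ U then sgn b - t else 1) * (1 + t * sgn b)) i (x i) := by
    funext x
    show _ = ∏ i, ((if i ∈ T then sgn (x i) - t else 1) * (if i ∈ U then sgn (x i) - t else 1) *
      (1 + t * sgn (x i)))
    rw [Finset.prod_mul_distrib, Finset.prod_mul_distrib]
    congr 2 <;> simp [phi, Finset.prod_ite_mem]
  rw [h1]
  refine (avg_prod (fun i (b : Bool) => (if i ∈ T then sgn b - t else 1) *
    (if i ∈ U then sgn b - t else 1) * (1 + t * sgn b))).trans ?_
  have h2 : ∀ i, avg (fun b : Bool => (if i ∈ T then sgn b - t else 1) *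
      (if i ∈ U then sgn b - t else 1) * (1 + t * sgn b)) =
      if i ∈ T then (if i ∈ U then 1 - t ^ 2 else 0) else (if i ∈ U then 0 else 1) := by
    intro i
    rw [avg_bool]
    by_cases a1 : i ∈ T <;> by_cases a2 : i ∈ U <;>
      simp only [a1, a2, if_true, if_false, sgn] <;> (try norm_num) <;> (try ring)
  rw [Finset.prod_congr rfl (fun i _ => h2 i)]
  split_ifs with hTU
  · subst hTU
    have : ∀ i, (if i ∈ T then (if i ∈ T then 1 - t ^ 2 else 0) else (if i ∈ T then 0 else 1)) =
        if i ∈ T then 1 - t ^ 2 else 1 := by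
      intro i
      by_cases a1 : i ∈ T <;> simp [a1]
    rw [Finset.prod_congr rfl (fun i _ => this i)]
    simp [Finset.prod_ite_mem]
  · have : ∃ i, (i ∈ T ∧ i ∉ U) ∨ (i ∉ T ∧ i ∈ U) := by
      by_contra hcon
      apply hTU
      ext i
      by_cases a1 : i ∈ T <;> by_cases a2 : i ∈ U <;> simp [a1, a2]
      · exact hcon ⟨i, Or.inl ⟨a1, a2⟩⟩
      · exact hcon ⟨i, Or.inr ⟨a1, a2⟩⟩
    obtain ⟨i, hi⟩ := this
    apply Finset.prod_eq_zero (Finset.mem_univ i)
    rcases hi with ⟨a1, a2⟩ | ⟨a1, a2⟩ <;> simp [a1, a2]

theorem exists_phi_expansion (t : ℝ) {d : ℕ} {g : (ι → Bool) → ℝ} (hg : g ∈ P ι d) :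
    ∃ a : Finset ι → ℝ, (∀ T, d < T.card → a T = 0) ∧
      ∀ x, g x = ∑ T : Finset ι, a T * phi t T x := by
  unfold P at hg
  induction hg using Submodule.span_induction with
  | mem g' hg' =>
      obtain ⟨S, hS, rfl⟩ := hg'
      refine ⟨fun T => if T ∈ S.powerset then t ^ (S \ T).card else 0, ?_, ?_⟩
      · intro T hT
        have : T ∉ S.powerset := by
          intro hmem
          have := Finset.card_le_card (Finset.mem_powerset.mp hmem)
          omega
        simp [this]
      · intro x
        have h1 : chi S x = ∏ i ∈ S, ((sgn (x i) - t) + t) := by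
          simp [chi]
        rw [h1, Finset.prod_add]
        simp only [ite_mul, zero_mul]
        rw [Finset.sum_ite_mem, Finset.univ_inter]
        refine Finset.sum_congr rfl (fun T _ => ?_)
        rw [Finset.prod_const]
        unfold phi
        ring
  | zero => exact ⟨fun _ => 0, fun _ _ => rfl, fun x => by simp⟩
  | add u v _ _ hu hv =>
      obtain ⟨a, ha1, ha2⟩ := hu
      obtain ⟨b, hb1, hb2⟩ := hv
      refine ⟨fun T => a T + b T, fun T hT => by simp [ha1 T hT, hb1 T hT], fun x => ?_⟩
      simp only [Pi.add_apply, ha2, hb2, add_mul, Finset.sum_add_distrib]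
  | smul c u _ hu =>
      obtain ⟨a, ha1, ha2⟩ := hu
      refine ⟨fun T => c * a T, fun T hT => by simp [ha1 T hT], fun x => ?_⟩
      simp only [Pi.smul_apply, smul_eq_mul, ha2, Finset.mul_sum, mul_assoc]

theorem bias_add' (u v : (ι → Bool) → ℝ) (t : ℝ) :
    bias (fun x => u x + v x) t = bias u t + bias v t := by
  unfold bias
  simp only [add_mul]
  exact avg_add _ _

theorem bias_const_mul (c : ℝ) (u : (ι → Bool) → ℝ) (t : ℝ) :
    bias (fun x => c * u x) t = c * bias u t := by
  unfold bias
  simp only [mul_assoc]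
  exact avg_smul _ _

theorem bias_zero (t : ℝ) : bias (fun _ : ι → Bool => (0 : ℝ)) t = 0 := by
  simp [bias, avg]

theorem bias_sum {γ : Type} [DecidableEq γ] (s : Finset γ) (F : γ → (ι → Bool) → ℝ) (t : ℝ) :
    bias (fun x => ∑ c ∈ s, F c x) t = ∑ c ∈ s, bias (F c) t := by
  induction s using Finset.induction_on with
  | empty => simpa using bias_zero t
  | insert a s ha ih =>
      simp only [Finset.sum_insert ha]
      rw [bias_add', ih]

/-- Mean value of a biased expansion. -/
theorem bias_expansion (t : ℝ) (a : Finset ι → ℝ) :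
    bias (fun x => ∑ T : Finset ι, a T * phi t T x) t = a ∅ := by
  rw [bias_sum]
  have : ∀ T : Finset ι, bias (fun x => a T * phi t T x) t = if T = ∅ then a T else 0 := by
    intro T
    rw [bias_const_mul]
    have h1 := bias_phi_mul t T ∅
    have h2 : (fun x : ι → Bool => phi t T x * phi t ∅ x) = phi t T := by
      funext x
      simp [phi]
    rw [h2] at h1
    rw [h1]
    split_ifs with hT
    · subst hT
      simp
    · simp
  rw [Finset.sum_congr rfl (fun T _ => this T)]
  simp

/-- Parseval for a biased expansion. -/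
theorem bias_sq_expansion (t : ℝ) (a : Finset ι → ℝ) :
    bias (fun x => (∑ T : Finset ι, a T * phi t T x) * (∑ T : Finset ι, a T * phi t T x)) t =
      ∑ T : Finset ι, a T ^ 2 * (1 - t ^ 2) ^ T.card := by
  have h0 : (fun x : ι → Bool => (∑ T : Finset ι, a T * phi t T x) * (∑ T : Finset ι, a T * phi t T x)) =
      fun x => ∑ T : Finset ι, ∑ U : Finset ι, (a T * a U) * (phi t T x * phi t U x) := by
    funext x
    rw [Finset.sum_mul_sum]
    refine Finset.sum_congr rfl (fun T _ => Finset.sum_congr rfl (fun U _ => ?_))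
    ring
  rw [h0, bias_sum]
  refine Finset.sum_congr rfl (fun T _ => ?_)
  rw [bias_sum]
  have : ∀ U : Finset ι, bias (fun x => (a T * a U) * (phi t T x * phi t U x)) t =
      if U = T then a T ^ 2 * (1 - t ^ 2) ^ T.card else 0 := by
    intro U
    rw [bias_const_mul, bias_phi_mul]
    by_cases hU : U = T
    · subst hU
      rw [if_pos rfl, if_pos rfl]
      ring
    · have : ¬ T = U := fun h => hU h.symm
      simp [hU, this]
  rw [Finset.sum_congr rfl (fun U _ => this U)]
  simp

/-- Discrete derivative in coordinate `i`. -/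
noncomputable def dl (i : ι) (g : (ι → Bool) → ℝ) (x : ι → Bool) : ℝ :=
  (g (Function.update x i false) - g (Function.update x i true)) / 2

theorem dl_phi (t : ℝ) (i : ι) (T : Finset ι) (x : ι → Bool) :
    dl i (phi t T) x = if i ∈ T then phi t (T.erase i) x else 0 := by
  unfold dl
  by_cases hi : i ∈ T
  · rw [if_pos hi]
    have h : ∀ b : Bool, phi t T (Function.update x i b) = (sgn b - t) * phi t (T.erase i) x := by
      intro b
      unfold phi
      rw [← Finset.mul_prod_erase T _ hi]
      congr 1
      · simp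
      · refine Finset.prod_congr rfl (fun j hj => ?_)
        rw [Function.update_of_ne (Finset.ne_of_mem_erase hj)]
    rw [h, h]
    simp only [sgn]
    norm_num
    ring
  · rw [if_neg hi]
    have h : ∀ b : Bool, phi t T (Function.update x i b) = phi t T x := by
      intro b
      unfold phi
      refine Finset.prod_congr rfl (fun j hj => ?_)
      rw [Function.update_of_ne]
      rintro rfl
      exact hi hj
    rw [h, h]
    simp

theorem phi_zero (T : Finset ι) : phi 0 T = chi T := by
  funext x
  simp [phi, chi]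

/-- Dirichlet form of a biased expansion, in one coordinate. -/
theorem dirichlet_coord (t : ℝ) (a : Finset ι → ℝ) (i : ι) (g : (ι → Bool) → ℝ)
    (hg : ∀ x, g x = ∑ T : Finset ι, a T * phi t T x) :
    (1 - t ^ 2) * bias (fun x => dl i g x * dl i g x) t =
      ∑ T : Finset ι, if i ∈ T then a T ^ 2 * (1 - t ^ 2) ^ T.card else 0 := by
  have hd : ∀ x, dl i g x = ∑ T : Finset ι, a T * (if i ∈ T then phi t (T.erase i) x else 0) := by
    intro x
    unfold dl
    rw [hg, hg, ← Finset.sum_sub_distrib, Finset.sum_div]
    refine Finset.sum_congr rfl (fun T _ => ?_)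
    rw [← dl_phi]
    unfold dl
    ring
  have h0 : (fun x : ι → Bool => dl i g x * dl i g x) =
      fun x => ∑ T : Finset ι, ∑ U : Finset ι, (a T * a U) *
        ((if i ∈ T then phi t (T.erase i) x else 0) * (if i ∈ U then phi t (U.erase i) x else 0)) := by
    funext x
    rw [hd, Finset.sum_mul_sum]
    refine Finset.sum_congr rfl (fun T _ => Finset.sum_congr rfl (fun U _ => ?_))
    ring
  rw [h0, bias_sum, Finset.mul_sum]
  refine Finset.sum_congr rfl (fun T _ => ?_)
  rw [bias_sum]
  have key : ∀ U : Finset ι, bias (fun x => (a T * a U) *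
        ((if i ∈ T then phi t (T.erase i) x else 0) * (if i ∈ U then phi t (U.erase i) x else 0))) t =
      if U = T then (if i ∈ T then a T ^ 2 * (1 - t ^ 2) ^ (T.card - 1) else 0) else 0 := by
    intro U
    rw [bias_const_mul]
    by_cases hT : i ∈ T
    · by_cases hU : i ∈ U
      · simp only [hT, hU, if_true]
        rw [bias_phi_mul]
        by_cases hTU : U = T
        · subst hTU
          rw [if_pos rfl, if_pos rfl, Finset.card_erase_of_mem hT]
          ring
        · have hne : T.erase i ≠ U.erase i := by
            intro h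
            apply hTU
            rw [← Finset.insert_erase hU, ← h, Finset.insert_erase hT]
          simp [hTU, hne]
      · have hTU : U ≠ T := by
          rintro rfl
          exact hU hT
        simp [hU, hTU, bias_zero]
    · simp [hT, bias_zero]
  rw [Finset.sum_congr rfl (fun U _ => key U)]
  simp only [Finset.sum_ite_eq', Finset.mem_univ, if_true]
  by_cases hT : i ∈ T
  · simp only [hT, if_true]
    have hc : T.card = (T.card - 1) + 1 := by
      have := Finset.card_pos.mpr ⟨i, hT⟩
      omega
    conv_rhs => rw [hc, pow_succ]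
    ring
  · simp [hT]

/-- The biased Poincare inequality for degree `d`. -/
theorem poincare {d : ℕ} {g : (ι → Bool) → ℝ} (hg : g ∈ P ι d) {t : ℝ} (ht : t ^ 2 ≤ 1) :
    (1 - t ^ 2) * ∑ i, bias (fun x => dl i g x * dl i g x) t ≤
      d * (bias (fun x => g x * g x) t - (bias g t) ^ 2) := by
  obtain ⟨a, ha1, ha2⟩ := exists_phi_expansion t hg
  have hgf : g = fun x => ∑ T : Finset ι, a T * phi t T x := funext ha2
  have e1 : bias g t = a ∅ := by
    rw [hgf]
    exact bias_expansion t a
  have e2 : bias (fun x => g x * g x) t = ∑ T : Finset ι, a T ^ 2 * (1 - t ^ 2) ^ T.card := by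
    rw [← bias_sq_expansion]
    congr 1
    funext x
    rw [ha2]
  have e3 : (1 - t ^ 2) * ∑ i, bias (fun x => dl i g x * dl i g x) t =
      ∑ T : Finset ι, (T.card : ℝ) * (a T ^ 2 * (1 - t ^ 2) ^ T.card) := by
    rw [Finset.mul_sum, Finset.sum_congr rfl (fun i _ => dirichlet_coord t a i g ha2), Finset.sum_comm]
    refine Finset.sum_congr rfl (fun T _ => ?_)
    rw [Finset.sum_ite_mem, Finset.univ_inter, Finset.sum_const, nsmul_eq_mul]
  rw [e3, e2, e1]
  have hw : 0 ≤ 1 - t ^ 2 := by linarith
  have e4 : (a ∅) ^ 2 = ∑ T : Finset ι, if T = ∅ then a T ^ 2 * (1 - t ^ 2) ^ T.card else 0 := by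
    simp
  rw [e4, ← Finset.sum_sub_distrib, Finset.mul_sum]
  refine Finset.sum_le_sum (fun T _ => ?_)
  by_cases hT : T = ∅
  · subst hT
    simp
  · rw [if_neg hT, sub_zero]
    by_cases hc : d < T.card
    · rw [ha1 T hc]
      simp
    · have hc' : (T.card : ℝ) ≤ d := by exact_mod_cast not_lt.mp hc
      exact mul_le_mul_of_nonneg_right hc' (by positivity)

theorem dl_chi (i : ι) (S : Finset ι) :
    dl i (chi S) = fun x => if i ∈ S then chi (S.erase i) x else 0 := by
  funext x
  rw [← phi_zero, dl_phi, phi_zero]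

/-- Derivative of the bias function. -/
theorem hasDerivAt_bias {d : ℕ} {g : (ι → Bool) → ℝ} (hg : g ∈ P ι d) (t : ℝ) :
    HasDerivAt (bias g) (∑ i, bias (dl i g) t) t := by
  unfold P at hg
  induction hg using Submodule.span_induction with
  | mem g' hg' =>
      obtain ⟨S, hS, rfl⟩ := hg'
      have h1 : bias (chi S) = fun s => s ^ S.card := funext (bias_chi S)
      rw [h1]
      have h2 : ∑ i, bias (dl i (chi S)) t = (S.card : ℝ) * t ^ (S.card - 1) := by
        have h3 : ∀ i, bias (dl i (chi S)) t = if i ∈ S then t ^ (S.card - 1) else 0 := by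
          intro i
          rw [dl_chi]
          by_cases hi : i ∈ S
          · simp only [hi, if_true]
            have := bias_chi (S.erase i) t
            rw [Finset.card_erase_of_mem hi] at this
            exact this
          · simp only [hi, if_false]
            exact bias_zero t
        rw [Finset.sum_congr rfl (fun i _ => h3 i), Finset.sum_ite_mem, Finset.univ_inter,
          Finset.sum_const, nsmul_eq_mul]
      rw [h2]
      exact hasDerivAt_pow S.card t
  | zero =>
      have h1 : bias (0 : (ι → Bool) → ℝ) = fun _ => 0 := by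
        funext s
        exact bias_zero s
      have h2 : ∀ i, bias (dl i (0 : (ι → Bool) → ℝ)) t = 0 := by
        intro i
        have : dl i (0 : (ι → Bool) → ℝ) = fun _ => 0 := by
          funext x
          simp [dl]
        rw [this]
        exact bias_zero t
      rw [h1, Finset.sum_congr rfl (fun i _ => h2 i)]
      simpa using hasDerivAt_const t (0 : ℝ)
  | add u v _ _ hu hv =>
      have h1 : bias (u + v) = fun s => bias u s + bias v s := by
        funext s
        exact bias_add' u v s
      have h2 : ∀ i, bias (dl i (u + v)) t = bias (dl i u) t + bias (dl i v) t := by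
        intro i
        rw [← bias_add']
        congr 1
        funext x
        simp only [dl, Pi.add_apply]
        ring
      rw [h1, Finset.sum_congr rfl (fun i _ => h2 i), Finset.sum_add_distrib]
      exact hu.add hv
  | smul c u _ hu =>
      have h1 : bias (c • u) = fun s => c * bias u s := by
        funext s
        exact bias_const_mul c u s
      have h2 : ∀ i, bias (dl i (c • u)) t = c * bias (dl i u) t := by
        intro i
        rw [← bias_const_mul]
        congr 1
        funext x
        simp only [dl, Pi.smul_apply, smul_eq_mul]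
        ring
      rw [h1, Finset.sum_congr rfl (fun i _ => h2 i), ← Finset.mul_sum]
      exact hu.const_mul c

theorem wgt_pos (x : ι → Bool) {t : ℝ} (h1 : -1 < t) (h2 : t < 1) :
    0 < ∏ i, (1 + t * sgn (x i)) := by
  refine Finset.prod_pos (fun i _ => ?_)
  cases x i
  · simp only [sgn]
    norm_num
    linarith
  · simp only [sgn]
    norm_num
    linarith

theorem bias_mono {u v : (ι → Bool) → ℝ} (h : ∀ x, u x ≤ v x) {t : ℝ} (h1 : -1 < t) (h2 : t < 1) :
    bias u t ≤ bias v t :=
  avg_mono_le (fun x => mul_le_mul_of_nonneg_right (h x) (wgt_pos x h1 h2).le)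

theorem bias_lt {u v : (ι → Bool) → ℝ} (h : ∀ x, u x ≤ v x) (x0 : ι → Bool) (h0 : u x0 < v x0)
    {t : ℝ} (h1 : -1 < t) (h2 : t < 1) : bias u t < bias v t := by
  unfold bias avg
  have hc : (0 : ℝ) < Fintype.card (ι → Bool) := by exact_mod_cast Fintype.card_pos
  apply div_lt_div_of_pos_right _ hc
  apply Finset.sum_lt_sum
  · exact fun x _ => mul_le_mul_of_nonneg_right (h x) (wgt_pos x h1 h2).le
  · exact ⟨x0, Finset.mem_univ _, mul_lt_mul_of_pos_right h0 (wgt_pos x0 h1 h2)⟩

theorem bias_one (t : ℝ) : bias (fun _ : ι → Bool => (1 : ℝ)) t = 1 := by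
  have := bias_chi (∅ : Finset ι) t
  have h : chi (∅ : Finset ι) = fun _ => 1 := by
    funext x
    simp [chi]
  rw [h] at this
  simpa using this

/-- The differential inequality for Boolean functions. -/
theorem deriv_bound {d : ℕ} {g : (ι → Bool) → ℝ} (hg : g ∈ P ι d) (hB : ∀ x, g x = 1 ∨ g x = -1)
    {t : ℝ} (h1 : -1 < t) (h2 : t < 1) :
    (∑ i, bias (dl i g) t) * (1 - t ^ 2) ≤ d * (1 - (bias g t) ^ 2) := by
  have hp := poincare hg (t := t) (by nlinarith)
  have hsq : (fun x => g x * g x) = fun _ => (1 : ℝ) := by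
    funext x
    rcases hB x with h | h <;> rw [h] <;> norm_num
  rw [hsq, bias_one] at hp
  have hle : ∑ i, bias (dl i g) t ≤ ∑ i, bias (fun x => dl i g x * dl i g x) t := by
    refine Finset.sum_le_sum (fun i _ => bias_mono (fun x => ?_) h1 h2)
    unfold dl
    rcases hB (Function.update x i false) with a | a <;> rcases hB (Function.update x i true) with b | b <;>
      rw [a, b] <;> norm_num
  have hw : 0 ≤ 1 - t ^ 2 := by nlinarith
  calc (∑ i, bias (dl i g) t) * (1 - t ^ 2) ≤ (∑ i, bias (fun x => dl i g x * dl i g x) t) * (1 - t ^ 2) :=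
        mul_le_mul_of_nonneg_right hle hw
    _ = (1 - t ^ 2) * ∑ i, bias (fun x => dl i g x * dl i g x) t := by ring
    _ ≤ _ := hp

end Biased

end Vale.Agent.GS
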