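import Vale.Agent.GS.Biased

set_option autoImplicit false

namespace Vale.Agent.GS

theorem altC_one_val (n : ℕ) : altC (2 * (n + 1) + 1) 1 = ((2 * (n + 1) + 1 : ℕ) : ℝ) := by
  have hD : 0 < 2 * (n + 1) + 1 := by omega
  have h1 := altC_odd hD (n + 1) (le_refl _)
  have h2 := altC_odd hD n (by omega)
  have h3 : altC (2 * (n + 1) + 1) (2 * ((n + 1 : ℕ) : ℤ) + 1) - altC (2 * (n + 1) + 1) (2 * (n : ℤ) + 1) =
      2 * ((2 * (n + 1) + 1 : ℕ) : ℝ) := by
    unfold altC
    rw [← Finset.sum_sub_distrib]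
    have key : ∀ k ∈ Finset.range (2 * (n + 1) + 1),
        (-1 : ℝ) ^ k * Real.sin (((2 * ((n + 1 : ℕ) : ℤ) + 1 : ℤ) : ℝ) * th (2 * (n + 1) + 1) k) /
            Real.sin (th (2 * (n + 1) + 1) k) ^ 2 -
          (-1 : ℝ) ^ k * Real.sin (((2 * (n : ℤ) + 1 : ℤ) : ℝ) * th (2 * (n + 1) + 1) k) /
            Real.sin (th (2 * (n + 1) + 1) k) ^ 2 = 2 := by
      intro k hk
      have hpos := sin_th_pos (Finset.mem_range.mp hk)
      have hne : Real.sin (th (2 * (n + 1) + 1) k) ^ 2 ≠ 0 := by positivity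
      have hDr : (((2 * (n + 1) + 1 : ℕ)) : ℝ) ≠ 0 := by positivity
      have E1 : ((2 * ((n + 1 : ℕ) : ℤ) + 1 : ℤ) : ℝ) * th (2 * (n + 1) + 1) k =
          (k : ℝ) * Real.pi + Real.pi / 2 := by
        unfold th
        push_cast at hDr ⊢
        field_simp
        try ring
      have E2 : ((2 * (n : ℤ) + 1 : ℤ) : ℝ) * th (2 * (n + 1) + 1) k =
          ((k : ℝ) * Real.pi + Real.pi / 2) - 2 * th (2 * (n + 1) + 1) k := by
        rw [← E1]
        push_cast
        ring
      have hc : Real.cos (2 * th (2 * (n + 1) + 1) k) = 1 - 2 * Real.sin (th (2 * (n + 1) + 1) k) ^ 2 := by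
        rw [Real.cos_two_mul]
        have := Real.sin_sq_add_cos_sq (th (2 * (n + 1) + 1) k)
        linarith
      rw [E1, E2, Real.sin_sub, Real.sin_add_pi_div_two, Real.cos_add_pi_div_two, Real.sin_nat_mul_pi,
        Real.cos_nat_mul_pi, hc]
      have he : ((-1 : ℝ) ^ k) * ((-1 : ℝ) ^ k) = 1 := by
        rw [← mul_pow]
        norm_num
      have e3 : (-1 : ℝ) ^ k * (-1 : ℝ) ^ k / Real.sin (th (2 * (n + 1) + 1) k) ^ 2 -
          (-1 : ℝ) ^ k * ((-1 : ℝ) ^ k * (1 - 2 * Real.sin (th (2 * (n + 1) + 1) k) ^ 2) -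
            -0 * Real.sin (2 * th (2 * (n + 1) + 1) k)) / Real.sin (th (2 * (n + 1) + 1) k) ^ 2 =
          (((-1 : ℝ) ^ k) * ((-1 : ℝ) ^ k)) * (2 * Real.sin (th (2 * (n + 1) + 1) k) ^ 2) /
            Real.sin (th (2 * (n + 1) + 1) k) ^ 2 := by
        ring
      rw [e3, he]
      field_simp
    rw [Finset.sum_congr rfl key, Finset.sum_const, Finset.card_range, nsmul_eq_mul]
    ring
  rw [h1, h2] at h3
  push_cast at h3 ⊢
  linarith

section Main

variable {ι : Type} [Fintype ι] [DecidableEq ι]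

theorem logodds_bound {d : ℕ} {g : (ι → Bool) → ℝ} (hg : g ∈ P ι d) (hB : ∀ x, g x = 1 ∨ g x = -1)
    (xp xm : ι → Bool) (hp : g xp = 1) (hm : g xm = -1) {t0 : ℝ} (h0 : 0 < t0) (h1 : t0 < 1) :
    Real.log (1 + bias g t0) - Real.log (1 - bias g t0) - Real.log (1 + bias g (-t0)) +
        Real.log (1 - bias g (-t0)) ≤ 2 * d * (Real.log (1 + t0) - Real.log (1 - t0)) := by
  have hlt : ∀ t, -1 < t → t < 1 → bias g t < 1 := by
    intro t a b
    have := bias_lt (u := g) (v := fun _ => 1) (fun x => by rcases hB x with h | h <;> rw [h] <;> norm_num)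
      xm (by rw [hm]; norm_num) a b
    rwa [bias_one] at this
  have hgt : ∀ t, -1 < t → t < 1 → -1 < bias g t := by
    intro t a b
    have := bias_lt (u := fun _ => (-1) * 1) (v := g)
      (fun x => by rcases hB x with h | h <;> rw [h] <;> norm_num) xp (by rw [hp]; norm_num) a b
    rw [bias_const_mul, bias_one] at this
    linarith
  let L : ℝ → ℝ := fun t => Real.log (1 + bias g t) - Real.log (1 - bias g t) -
    (d : ℝ) * (Real.log (1 + t) - Real.log (1 - t))
  have hder : ∀ t ∈ Set.Ioo (-1 : ℝ) 1, HasDerivAt L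
      ((∑ i, bias (dl i g) t) / (1 + bias g t) - (-(∑ i, bias (dl i g) t)) / (1 - bias g t) -
        (d : ℝ) * (1 / (1 + t) - (-1) / (1 - t))) t := by
    intro t ht
    have hy := hasDerivAt_bias hg t
    have n1 : 1 + bias g t ≠ 0 := by linarith [hgt t ht.1 ht.2]
    have n2 : 1 - bias g t ≠ 0 := by linarith [hlt t ht.1 ht.2]
    have n3 : 1 + t ≠ 0 := by linarith [ht.1]
    have n4 : 1 - t ≠ 0 := by linarith [ht.2]
    have a1 := (hy.const_add 1).log n1
    have a2 := (hy.const_sub 1).log n2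
    have a3 := ((hasDerivAt_id' t).const_add 1).log n3
    have a4 := ((hasDerivAt_id' t).const_sub 1).log n4
    exact (a1.sub a2).sub ((a3.sub a4).const_mul (d : ℝ))
  have hanti : AntitoneOn L (Set.Ioo (-1 : ℝ) 1) := by
    apply antitoneOn_of_deriv_nonpos (convex_Ioo _ _)
    · exact fun t ht => (hder t ht).continuousAt.continuousWithinAt
    · rw [interior_Ioo]
      exact fun t ht => (hder t ht).differentiableAt.differentiableWithinAt
    · rw [interior_Ioo]
      intro t ht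
      rw [(hder t ht).deriv]
      have hk := deriv_bound hg hB ht.1 ht.2
      have p1 : 0 < 1 + bias g t := by linarith [hgt t ht.1 ht.2]
      have p2 : 0 < 1 - bias g t := by linarith [hlt t ht.1 ht.2]
      have p3 : 0 < 1 + t := by linarith [ht.1]
      have p4 : 0 < 1 - t := by linarith [ht.2]
      set y' := ∑ i, bias (dl i g) t
      set y := bias g t
      have e : y' / (1 + y) - (-y') / (1 - y) - (d : ℝ) * (1 / (1 + t) - (-1) / (1 - t)) =
          2 * (y' * ((1 + t) * (1 - t)) - d * ((1 + y) * (1 - y))) / ((1 + y) * (1 - y) * ((1 + t) * (1 - t))) := by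
        field_simp
        ring
      rw [e]
      apply div_nonpos_of_nonpos_of_nonneg
      · have h5 : (1 + t) * (1 - t) = 1 - t ^ 2 := by ring
        have h6 : (1 + y) * (1 - y) = 1 - y ^ 2 := by ring
        rw [h5, h6]
        linarith
      · positivity
  have hm0 : -t0 ∈ Set.Ioo (-1 : ℝ) 1 := ⟨by linarith, by linarith⟩
  have hp0 : t0 ∈ Set.Ioo (-1 : ℝ) 1 := ⟨by linarith, h1⟩
  have hfin := hanti hm0 hp0 (by linarith)
  simp only [L] at hfin
  have e1 : 1 + -t0 = 1 - t0 := by ring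
  have e2 : 1 - -t0 = 1 + t0 := by ring
  rw [e1, e2] at hfin
  nlinarith [hfin]

theorem exp_seven_le : Real.exp 7 ≤ 1199 := by
  have e : Real.exp 7 = Real.exp 1 ^ 7 := by
    rw [← Real.exp_nat_mul]
    norm_num
  rw [e]
  calc Real.exp 1 ^ 7 ≤ (2.72 : ℝ) ^ 7 :=
        pow_le_pow_left₀ (Real.exp_pos _).le (by linarith [Real.exp_one_lt_d9]) 7
    _ ≤ 1199 := by norm_num

/-- The envelope: the bias function cannot swing fully across a short interval. -/
theorem envelope {d : ℕ} {g : (ι → Bool) → ℝ} (hg : g ∈ P ι d) (hB : ∀ x, g x = 1 ∨ g x = -1)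
    (xp xm : ι → Bool) (hp : g xp = 1) (hm : g xm = -1) {t0 : ℝ} (h0 : 0 < t0) (h1 : t0 < 1)
    (hK : (d : ℝ) * (Real.log (1 + t0) - Real.log (1 - t0)) ≤ 7) :
    bias g t0 - bias g (-t0) ≤ 2 * (1 - 1 / 1200) := by
  by_contra hcon
  have hcon' : 2 * (1 - 1 / 1200) < bias g t0 - bias g (-t0) := not_le.mp hcon
  have hlog := logodds_bound hg hB xp xm hp hm h0 h1
  have hlt : ∀ t, -1 < t → t < 1 → bias g t < 1 := by
    intro t a b
    have := bias_lt (u := g) (v := fun _ => 1) (fun x => by rcases hB x with h | h <;> rw [h] <;> norm_num)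
      xm (by rw [hm]; norm_num) a b
    rwa [bias_one] at this
  have hgt : ∀ t, -1 < t → t < 1 → -1 < bias g t := by
    intro t a b
    have := bias_lt (u := fun _ => (-1) * 1) (v := g)
      (fun x => by rcases hB x with h | h <;> rw [h] <;> norm_num) xp (by rw [hp]; norm_num) a b
    rw [bias_const_mul, bias_one] at this
    linarith
  have b1 := hlt t0 (by linarith) h1
  have b2 := hgt t0 (by linarith) h1
  have b3 := hlt (-t0) (by linarith) (by linarith)
  have b4 := hgt (-t0) (by linarith) (by linarith)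
  set yp := bias g t0
  set ym := bias g (-t0)
  have lo : Real.log (2 - 2 / 1200) - Real.log (2 / 1200) = Real.log 1199 := by
    rw [← Real.log_div (by norm_num) (by norm_num)]
    norm_num
  have l1 : Real.log (2 - 2 / 1200) < Real.log (1 + yp) :=
    Real.log_lt_log (by norm_num) (by linarith)
  have l2 : Real.log (1 - yp) < Real.log (2 / 1200) :=
    Real.log_lt_log (by linarith) (by linarith)
  have l3 : Real.log (1 + ym) < Real.log (2 / 1200) :=
    Real.log_lt_log (by linarith) (by linarith)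
  have l4 : Real.log (2 - 2 / 1200) < Real.log (1 - ym) :=
    Real.log_lt_log (by norm_num) (by linarith)
  have l5 : (7 : ℝ) ≤ Real.log 1199 := (Real.le_log_iff_exp_le (by norm_num)).mpr exp_seven_le
  nlinarith [hK]

/-- Numerical facts on the first node. -/
theorem node_facts (m : ℕ) (hm : 1 ≤ m) :
    0 < Real.sin (th (2 * m + 1) 0) ∧ Real.sin (th (2 * m + 1) 0) < 1 ∧
      ((2 * m + 2 : ℕ) : ℝ) * (Real.log (1 + Real.sin (th (2 * m + 1) 0)) - Real.log (1 - Real.sin (th (2 * m + 1) 0))) ≤ 7 ∧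
      Real.sin (th (2 * m + 1) 0) * ((2 * m + 1 : ℕ) : ℝ) ≤ 1.575 := by
  have hpos := sin_th_pos (D := 2 * m + 1) (k := 0) (by omega)
  set s0 := Real.sin (th (2 * m + 1) 0) with hs0
  have hDr : (0 : ℝ) < ((2 * m + 1 : ℕ) : ℝ) := by positivity
  have hD3 : (3 : ℝ) ≤ ((2 * m + 1 : ℕ) : ℝ) := by
    have : 3 ≤ 2 * m + 1 := by omega
    exact_mod_cast this
  have hth : 0 ≤ th (2 * m + 1) 0 := by
    unfold th
    positivity
  have hle : s0 ≤ th (2 * m + 1) 0 := Real.sin_le hth
  have hmul : s0 * ((2 * m + 1 : ℕ) : ℝ) ≤ 1.575 := by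
    have e : th (2 * m + 1) 0 * ((2 * m + 1 : ℕ) : ℝ) = Real.pi / 2 := by
      unfold th
      field_simp
      push_cast
      try ring
    have hpi := Real.pi_lt_d2
    have := mul_le_mul_of_nonneg_right hle hDr.le
    rw [e] at this
    linarith
  have hs1 : s0 ≤ 0.525 := by nlinarith
  have l1 : Real.log (1 + s0) ≤ s0 := by
    have := Real.log_le_sub_one_of_pos (by linarith : 0 < 1 + s0)
    linarith
  have hu : 0 < 1 - s0 := by linarith
  have l2 : -Real.log (1 - s0) ≤ 2.11 * s0 := by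
    have h3 := Real.log_le_sub_one_of_pos (inv_pos.mpr hu)
    rw [Real.log_inv] at h3
    have h4 : (1 - s0)⁻¹ ≤ 1 + 2.11 * s0 := by
      rw [inv_eq_one_div, div_le_iff₀ hu]
      nlinarith
    linarith
  refine ⟨hpos, by linarith, ?_, hmul⟩
  have hK : Real.log (1 + s0) - Real.log (1 - s0) ≤ 3.11 * s0 := by linarith
  have hK0 : 0 ≤ 3.11 * s0 := by positivity
  have e2 : ((2 * m + 2 : ℕ) : ℝ) = ((2 * m + 1 : ℕ) : ℝ) + 1 := by
    push_cast
    ring
  rw [e2]
  have h5 : (((2 * m + 1 : ℕ) : ℝ) + 1) * s0 ≤ 2.1 := by nlinarith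
  have h6 : 0 ≤ ((2 * m + 1 : ℕ) : ℝ) + 1 := by positivity
  calc (((2 * m + 1 : ℕ) : ℝ) + 1) * (Real.log (1 + s0) - Real.log (1 - s0))
      ≤ (((2 * m + 1 : ℕ) : ℝ) + 1) * (3.11 * s0) := mul_le_mul_of_nonneg_left hK h6
    _ = 3.11 * ((((2 * m + 1 : ℕ) : ℝ) + 1) * s0) := by ring
    _ ≤ 3.11 * 2.1 := by linarith
    _ ≤ 7 := by norm_num

/-- The constant-factor bound for Boolean functions of degree at most `2 m + 2`, with `m ≥ 1`. -/
theorem level_const (m : ℕ) (hm : 1 ≤ m) {f : (ι → Bool) → Bool} (hf : DegLE f (2 * m + 2)) :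
    levelOneSum f ≤ ((2 * m + 1 : ℕ) : ℝ) * (1 - 1 / 3000) := by
  let g : (ι → Bool) → ℝ := fun x => sgn (f x)
  have hg : g ∈ P ι (2 * m + 2) := hf
  have hB : ∀ x, g x = 1 ∨ g x = -1 := by
    intro x
    simp only [g, sgn]
    cases f x <;> simp
  have hDpos : (0 : ℝ) < ((2 * m + 1 : ℕ) : ℝ) := by positivity
  have hzero : avg (fun x : ι → Bool => ∑ i, sgn (x i)) = 0 := by
    have := lvl_chi (∅ : Finset ι)
    simpa [lvl, chi] using this
  by_cases hxm : ∃ xm, g xm = -1
  swap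
  · have hc : ∀ x, sgn (f x) = 1 := by
      intro x
      rcases hB x with h | h
      · exact h
      · exact absurd ⟨x, h⟩ hxm
    have : levelOneSum f = 0 := by
      unfold levelOneSum
      simp only [hc, one_mul]
      exact hzero
    rw [this]
    positivity
  by_cases hxp : ∃ xp, g xp = 1
  swap
  · have hc : ∀ x, sgn (f x) = -1 := by
      intro x
      rcases hB x with h | h
      · exact absurd ⟨x, h⟩ hxp
      · exact h
    have : levelOneSum f = 0 := by
      unfold levelOneSum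
      simp only [hc]
      rw [avg_smul, hzero]
      simp
    rw [this]
    positivity
  obtain ⟨xm, hm'⟩ := hxm
  obtain ⟨xp, hp'⟩ := hxp
  obtain ⟨n, rfl⟩ : ∃ n, m = n + 1 := ⟨m - 1, by omega⟩
  obtain ⟨f1, f2, f3, f4⟩ := node_facts (n + 1) hm
  set D := 2 * (n + 1) + 1 with hD
  have hDk : 0 < D := by omega
  set s0 := Real.sin (th D 0) with hs0
  have henv := envelope hg hB xp xm hp' hm' f1 f2 f3
  have hb : ∀ x, |g x| ≤ 1 := fun x => abs_sgn_le (f x)
  have hpsi : psi D g ≤ altW D - (1 / 1200) / s0 ^ 2 := by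
    have hW : altW D - (1 / 1200) / s0 ^ 2 =
        ∑ k ∈ Finset.range D, (1 / Real.sin (th D k) ^ 2 - if k = 0 then (1 / 1200) / s0 ^ 2 else 0) := by
      rw [Finset.sum_sub_distrib, Finset.sum_ite_eq' (Finset.range D) 0, if_pos (Finset.mem_range.mpr hDk)]
      rfl
    rw [hW]
    unfold psi
    refine Finset.sum_le_sum (fun k hk => ?_)
    have hpos := sin_th_pos (Finset.mem_range.mp hk)
    by_cases hk0 : k = 0
    · subst hk0
      rw [if_pos rfl, pow_zero, one_mul]
      have hs : 0 < s0 ^ 2 := by positivity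
      have e : (1 : ℝ) / Real.sin (th D 0) ^ 2 - 1 / 1200 / s0 ^ 2 = (1 - 1 / 1200) / s0 ^ 2 := by
        rw [← hs0]
        ring
      rw [e, ← hs0]
      rw [div_le_div_iff₀ (by positivity) hs]
      nlinarith
    · rw [if_neg hk0, sub_zero]
      have hs1 : |Real.sin (th D k)| ≤ 1 := Real.abs_sin_le_one _
      have hs2 : |-Real.sin (th D k)| ≤ 1 := by rwa [abs_neg]
      have h1 := abs_le.mp (abs_bias_le hb hs1)
      have h2 := abs_le.mp (abs_bias_le hb hs2)
      set y := bias g (Real.sin (th D k))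
      set z := bias g (-Real.sin (th D k))
      have hyz : (-1 : ℝ) ^ k * (y - z) ≤ 2 := by
        rcases neg_one_pow_eq_or ℝ k with h | h <;> rw [h] <;> linarith [h1.1, h1.2, h2.1, h2.2]
      have hd : (0 : ℝ) < 2 * Real.sin (th D k) ^ 2 := by positivity
      rw [div_le_div_iff₀ hd (by positivity)]
      nlinarith [sq_nonneg (Real.sin (th D k))]
  have hc := altC_one_val n
  have heq := psi_eq (n + 1) g hg
  have hW2 := altW_eq (n + 1)
  rw [← hD] at hc heq hW2
  rw [heq, hW2, hc] at hpsi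
  have hlv : lvl g = levelOneSum f := rfl
  rw [hlv] at hpsi
  have hD' : ((2 * (n + 1) + 1 : ℕ) : ℝ) = (D : ℝ) := by rw [hD]
  rw [hD']
  have hDpos' : (0 : ℝ) < (D : ℝ) := by exact_mod_cast hDk
  have hs : 0 < s0 ^ 2 := by positivity
  have hinv : 0.4 * (D : ℝ) ^ 2 ≤ 1 / s0 ^ 2 := by
    rw [le_div_iff₀ hs]
    have h7 : s0 * (D : ℝ) ≤ 1.575 := by
      rw [← hD']
      exact f4
    have h8 : 0 ≤ s0 * (D : ℝ) := by positivity
    nlinarith
  have hfin : (D : ℝ) * levelOneSum f ≤ (D : ℝ) * ((D : ℝ) * (1 - 1 / 3000)) := by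
    have e : (1 / 1200 : ℝ) / s0 ^ 2 = (1 / 1200) * (1 / s0 ^ 2) := by ring
    rw [e] at hpsi
    nlinarith
  exact le_of_mul_le_mul_left hfin hDpos'

/-- For all degrees at least two. -/
theorem level_all {d : ℕ} (hd : 2 ≤ d) {f : (ι → Bool) → Bool} (hf : DegLE f d) :
    levelOneSum f ≤ (1 - 1 / 3000) * (d : ℝ) := by
  by_cases h2 : d = 2
  · subst h2
    have := level_even_degree (ι := ι) 0 (f := f) hf
    push_cast at this ⊢
    linarith
  · have hm : 1 ≤ (d - 1) / 2 := by omega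
    have hle : d ≤ 2 * ((d - 1) / 2) + 2 := by omega
    have hf' : DegLE f (2 * ((d - 1) / 2) + 2) := P_mono hle hf
    have h3 := level_const ((d - 1) / 2) hm hf'
    have h4 : (((2 * ((d - 1) / 2) + 1 : ℕ)) : ℝ) ≤ d := by
      have : 2 * ((d - 1) / 2) + 1 ≤ d := by omega
      exact_mod_cast this
    have h5 : (0 : ℝ) ≤ 1 - 1 / 3000 := by norm_num
    calc levelOneSum f ≤ ((2 * ((d - 1) / 2) + 1 : ℕ) : ℝ) * (1 - 1 / 3000) := h3
      _ ≤ (d : ℝ) * (1 - 1 / 3000) := mul_le_mul_of_nonneg_right h4 h5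
      _ = _ := by ring

end Main

end Vale.Agent.GS
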