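import Vale.Agent.GS.Const

set_option autoImplicit false

namespace Vale.Agent.GS

theorem exp_ten_third_le : Real.exp (10 / 3) ≤ 29 := by
  have h : Real.exp (10 / 3) ^ 3 = Real.exp 10 := by
    rw [← Real.exp_nat_mul]
    norm_num
  have h10 : Real.exp 10 ≤ 29 ^ 3 := by
    have e : Real.exp 10 = Real.exp 1 ^ 10 := by
      rw [← Real.exp_nat_mul]
      norm_num
    rw [e]
    calc Real.exp 1 ^ 10 ≤ (2.72 : ℝ) ^ 10 :=
          pow_le_pow_left₀ (Real.exp_pos _).le (by linarith [Real.exp_one_lt_d9]) 10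
      _ ≤ 29 ^ 3 := by norm_num
  by_contra hcon
  have hlt : (29 : ℝ) < Real.exp (10 / 3) := not_le.mp hcon
  have := pow_lt_pow_left₀ hlt (by norm_num) (n := 3) (by norm_num)
  rw [h] at this
  linarith

section Main

variable {ι : Type} [Fintype ι] [DecidableEq ι]

/-- The envelope: the bias function cannot swing fully across a short interval. -/
theorem envelope_large {d : ℕ} {g : (ι → Bool) → ℝ} (hg : g ∈ P ι d) (hB : ∀ x, g x = 1 ∨ g x = -1)
    (xp xm : ι → Bool) (hp : g xp = 1) (hm : g xm = -1) {t0 : ℝ} (h0 : 0 < t0) (h1 : t0 < 1)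
    (hK : (d : ℝ) * (Real.log (1 + t0) - Real.log (1 - t0)) ≤ 10 / 3) :
    bias g t0 - bias g (-t0) ≤ 2 * (1 - 1 / 30) := by
  by_contra hcon
  have hcon' : 2 * (1 - 1 / 30) < bias g t0 - bias g (-t0) := not_le.mp hcon
  have hlog := logodds_bound hg hB xp xm hp hm h0 h1
  have hlt : ∀ t, -1 < t → t < 1 → bias g t < 1 := by
    intro t a b
    have := bias_lt (u := g) (v := fun _ => 1) (fun x => by rcases hB x with h | h <;> rw [h] <;> norm_num)
      xm (by rw [hm]; norm_num) a b
    rwa [bias_one] at this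
  have hgt : ∀ t, -1 < t → t < 1 → -1 < bias g t := by
    intro t a b
    have := bias_lt (u := fun _ => (-1) * 1) (v := g)
      (fun x => by rcases hB x with h | h <;> rw [h] <;> norm_num) xp (by rw [hp]; norm_num) a b
    rw [bias_const_mul, bias_one] at this
    linarith
  have b1 := hlt t0 (by linarith) h1
  have b2 := hgt t0 (by linarith) h1
  have b3 := hlt (-t0) (by linarith) (by linarith)
  have b4 := hgt (-t0) (by linarith) (by linarith)
  set yp := bias g t0
  set ym := bias g (-t0)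
  have lo : Real.log (2 - 2 / 30) - Real.log (2 / 30) = Real.log 29 := by
    rw [← Real.log_div (by norm_num) (by norm_num)]
    norm_num
  have l1 : Real.log (2 - 2 / 30) < Real.log (1 + yp) :=
    Real.log_lt_log (by norm_num) (by linarith)
  have l2 : Real.log (1 - yp) < Real.log (2 / 30) :=
    Real.log_lt_log (by linarith) (by linarith)
  have l3 : Real.log (1 + ym) < Real.log (2 / 30) :=
    Real.log_lt_log (by linarith) (by linarith)
  have l4 : Real.log (2 - 2 / 30) < Real.log (1 - ym) :=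
    Real.log_lt_log (by norm_num) (by linarith)
  have l5 : (10 / 3 : ℝ) ≤ Real.log 29 := (Real.le_log_iff_exp_le (by norm_num)).mpr exp_ten_third_le
  nlinarith [hK]

/-- Numerical facts on the first node, for large degree. -/
theorem node_facts_large (m : ℕ) (hm : 49 ≤ m) :
    0 < Real.sin (th (2 * m + 1) 0) ∧ Real.sin (th (2 * m + 1) 0) < 1 ∧
      ((2 * m + 2 : ℕ) : ℝ) * (Real.log (1 + Real.sin (th (2 * m + 1) 0)) - Real.log (1 - Real.sin (th (2 * m + 1) 0))) ≤ 10 / 3 ∧
      Real.sin (th (2 * m + 1) 0) * ((2 * m + 1 : ℕ) : ℝ) ≤ 1.575 := by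
  have hpos := sin_th_pos (D := 2 * m + 1) (k := 0) (by omega)
  have hmul := (node_facts m (by omega)).2.2.2
  set s0 := Real.sin (th (2 * m + 1) 0) with hs0
  have hD3 : (99 : ℝ) ≤ ((2 * m + 1 : ℕ) : ℝ) := by
    have : 99 ≤ 2 * m + 1 := by omega
    exact_mod_cast this
  have hs1 : s0 ≤ 0.016 := by nlinarith
  have l1 : Real.log (1 + s0) ≤ s0 := by
    have := Real.log_le_sub_one_of_pos (by linarith : 0 < 1 + s0)
    linarith
  have hu : 0 < 1 - s0 := by linarith
  have l2 : -Real.log (1 - s0) ≤ 1.02 * s0 := by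
    have h3 := Real.log_le_sub_one_of_pos (inv_pos.mpr hu)
    rw [Real.log_inv] at h3
    have h4 : (1 - s0)⁻¹ ≤ 1 + 1.02 * s0 := by
      rw [inv_eq_one_div, div_le_iff₀ hu]
      nlinarith
    linarith
  refine ⟨hpos, by linarith, ?_, hmul⟩
  have hK : Real.log (1 + s0) - Real.log (1 - s0) ≤ 2.02 * s0 := by linarith
  have e2 : ((2 * m + 2 : ℕ) : ℝ) = ((2 * m + 1 : ℕ) : ℝ) + 1 := by
    push_cast
    ring
  rw [e2]
  have h5 : (((2 * m + 1 : ℕ) : ℝ) + 1) * s0 ≤ 1.6 := by nlinarith
  have h6 : 0 ≤ ((2 * m + 1 : ℕ) : ℝ) + 1 := by positivity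
  calc (((2 * m + 1 : ℕ) : ℝ) + 1) * (Real.log (1 + s0) - Real.log (1 - s0))
      ≤ (((2 * m + 1 : ℕ) : ℝ) + 1) * (2.02 * s0) := mul_le_mul_of_nonneg_left hK h6
    _ = 2.02 * ((((2 * m + 1 : ℕ) : ℝ) + 1) * s0) := by ring
    _ ≤ 2.02 * 1.6 := by linarith
    _ ≤ 10 / 3 := by norm_num

/-- The constant-factor bound for Boolean functions of degree at most `2 m + 2`, with `m ≥ 1`. -/
theorem level_large (m : ℕ) (hm : 49 ≤ m) {f : (ι → Bool) → Bool} (hf : DegLE f (2 * m + 2)) :
    levelOneSum f ≤ ((2 * m + 1 : ℕ) : ℝ) * (1 - 2 / 75) := by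
  let g : (ι → Bool) → ℝ := fun x => sgn (f x)
  have hg : g ∈ P ι (2 * m + 2) := hf
  have hB : ∀ x, g x = 1 ∨ g x = -1 := by
    intro x
    simp only [g, sgn]
    cases f x <;> simp
  have hDpos : (0 : ℝ) < ((2 * m + 1 : ℕ) : ℝ) := by positivity
  have hzero : avg (fun x : ι → Bool => ∑ i, sgn (x i)) = 0 := by
    have := lvl_chi (∅ : Finset ι)
    simpa [lvl, chi] using this
  by_cases hxm : ∃ xm, g xm = -1
  swap
  · have hc : ∀ x, sgn (f x) = 1 := by
      intro x
      rcases hB x with h | h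
      · exact h
      · exact absurd ⟨x, h⟩ hxm
    have : levelOneSum f = 0 := by
      unfold levelOneSum
      simp only [hc, one_mul]
      exact hzero
    rw [this]
    positivity
  by_cases hxp : ∃ xp, g xp = 1
  swap
  · have hc : ∀ x, sgn (f x) = -1 := by
      intro x
      rcases hB x with h | h
      · exact absurd ⟨x, h⟩ hxp
      · exact h
    have : levelOneSum f = 0 := by
      unfold levelOneSum
      simp only [hc]
      rw [avg_smul, hzero]
      simp
    rw [this]
    positivity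
  obtain ⟨xm, hm'⟩ := hxm
  obtain ⟨xp, hp'⟩ := hxp
  obtain ⟨n, rfl⟩ : ∃ n, m = n + 1 := ⟨m - 1, by omega⟩
  obtain ⟨f1, f2, f3, f4⟩ := node_facts_large (n + 1) hm
  set D := 2 * (n + 1) + 1 with hD
  have hDk : 0 < D := by omega
  set s0 := Real.sin (th D 0) with hs0
  have henv := envelope_large hg hB xp xm hp' hm' f1 f2 f3
  have hb : ∀ x, |g x| ≤ 1 := fun x => abs_sgn_le (f x)
  have hpsi : psi D g ≤ altW D - 2 * ((1 / 30) / s0 ^ 2) := by
    have hlast : D - 1 < D := by omega
    have hW : altW D - 2 * ((1 / 30) / s0 ^ 2) =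
        ∑ k ∈ Finset.range D, (1 / Real.sin (th D k) ^ 2 -
          ((if k = 0 then (1 / 30) / s0 ^ 2 else 0) + (if k = D - 1 then (1 / 30) / s0 ^ 2 else 0))) := by
      rw [Finset.sum_sub_distrib, Finset.sum_add_distrib, Finset.sum_ite_eq' (Finset.range D) 0,
        Finset.sum_ite_eq' (Finset.range D) (D - 1), if_pos (Finset.mem_range.mpr hDk),
        if_pos (Finset.mem_range.mpr hlast)]
      unfold altW
      ring
    rw [hW]
    unfold psi
    refine Finset.sum_le_sum (fun k hk => ?_)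
    have hpos := sin_th_pos (Finset.mem_range.mp hk)
    have hne : D - 1 ≠ 0 := by omega
    by_cases hk0 : k = 0
    · subst hk0
      rw [if_pos rfl, if_neg (fun h => hne h.symm), add_zero, pow_zero, one_mul]
      have hs : 0 < s0 ^ 2 := by positivity
      have e : (1 : ℝ) / Real.sin (th D 0) ^ 2 - 1 / 30 / s0 ^ 2 = (1 - 1 / 30) / s0 ^ 2 := by
        rw [← hs0]
        ring
      rw [e, ← hs0]
      rw [div_le_div_iff₀ (by positivity) hs]
      nlinarith
    · by_cases hk1 : k = D - 1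
      · rw [hk1]
        have hDr : (D : ℝ) ≠ 0 := by
          have : (0 : ℝ) < (D : ℝ) := by exact_mod_cast hDk
          exact this.ne'
        have hs_eq : Real.sin (th D (D - 1)) = s0 := by
          have e1 : th D (D - 1) = Real.pi - th D 0 := by
            unfold th
            have hcast : ((D - 1 : ℕ) : ℝ) = (D : ℝ) - 1 := by
              rw [Nat.cast_sub (by omega)]
              simp
            rw [hcast]
            field_simp
            try ring
          rw [e1, Real.sin_pi_sub]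
        have hev : (-1 : ℝ) ^ (D - 1) = 1 := by
          have : D - 1 = 2 * (n + 1) := by omega
          rw [this, pow_mul]
          norm_num
        rw [if_neg hne, if_pos rfl, zero_add, hev, one_mul, hs_eq]
        have hs : 0 < s0 ^ 2 := by positivity
        have e : (1 : ℝ) / s0 ^ 2 - 1 / 30 / s0 ^ 2 = (1 - 1 / 30) / s0 ^ 2 := by
          ring
        rw [e]
        rw [div_le_div_iff₀ (by positivity) hs]
        nlinarith
      · rw [if_neg hk0, if_neg hk1, add_zero, sub_zero]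
        have hs1 : |Real.sin (th D k)| ≤ 1 := Real.abs_sin_le_one _
        have hs2 : |-Real.sin (th D k)| ≤ 1 := by rwa [abs_neg]
        have h1 := abs_le.mp (abs_bias_le hb hs1)
        have h2 := abs_le.mp (abs_bias_le hb hs2)
        set y := bias g (Real.sin (th D k))
        set z := bias g (-Real.sin (th D k))
        have hyz : (-1 : ℝ) ^ k * (y - z) ≤ 2 := by
          rcases neg_one_pow_eq_or ℝ k with h | h <;> rw [h] <;> linarith [h1.1, h1.2, h2.1, h2.2]
        have hd : (0 : ℝ) < 2 * Real.sin (th D k) ^ 2 := by positivity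
        rw [div_le_div_iff₀ hd (by positivity)]
        nlinarith [sq_nonneg (Real.sin (th D k))]
  have hc := altC_one_val n
  have heq := psi_eq (n + 1) g hg
  have hW2 := altW_eq (n + 1)
  rw [← hD] at hc heq hW2
  rw [heq, hW2, hc] at hpsi
  have hlv : lvl g = levelOneSum f := rfl
  rw [hlv] at hpsi
  have hD' : ((2 * (n + 1) + 1 : ℕ) : ℝ) = (D : ℝ) := by rw [hD]
  rw [hD']
  have hDpos' : (0 : ℝ) < (D : ℝ) := by exact_mod_cast hDk
  have hs : 0 < s0 ^ 2 := by positivity
  have hinv : 0.4 * (D : ℝ) ^ 2 ≤ 1 / s0 ^ 2 := by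
    rw [le_div_iff₀ hs]
    have h7 : s0 * (D : ℝ) ≤ 1.575 := by
      rw [← hD']
      exact f4
    have h8 : 0 ≤ s0 * (D : ℝ) := by positivity
    nlinarith
  have hfin : (D : ℝ) * levelOneSum f ≤ (D : ℝ) * ((D : ℝ) * (1 - 2 / 75)) := by
    have e : (1 / 30 : ℝ) / s0 ^ 2 = (1 / 30) * (1 / s0 ^ 2) := by ring
    rw [e] at hpsi
    nlinarith
  exact le_of_mul_le_mul_left hfin hDpos'

/-- For all degrees at least 99. -/
theorem level_all_large {d : ℕ} (hd : 99 ≤ d) {f : (ι → Bool) → Bool} (hf : DegLE f d) :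
    levelOneSum f ≤ (1 - 2 / 75) * (d : ℝ) := by
  have hm : 49 ≤ (d - 1) / 2 := by omega
  have hle : d ≤ 2 * ((d - 1) / 2) + 2 := by omega
  have hf' : DegLE f (2 * ((d - 1) / 2) + 2) := P_mono hle hf
  have h3 := level_large ((d - 1) / 2) hm hf'
  have h4 : (((2 * ((d - 1) / 2) + 1 : ℕ)) : ℝ) ≤ d := by
    have : 2 * ((d - 1) / 2) + 1 ≤ d := by omega
    exact_mod_cast this
  have h5 : (0 : ℝ) ≤ 1 - 2 / 75 := by norm_num
  calc levelOneSum f ≤ ((2 * ((d - 1) / 2) + 1 : ℕ) : ℝ) * (1 - 2 / 75) := h3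
    _ ≤ (d : ℝ) * (1 - 2 / 75) := mul_le_mul_of_nonneg_right h4 h5
    _ = _ := by ring

end Main

end Vale.Agent.GS
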