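import Vale.Agent.GS.Basic

set_option autoImplicit false

namespace Vale.Agent.GS

section Avg

variable {α β : Type} [Fintype α] [Fintype β]

theorem avg_add (F G : α → ℝ) : avg (fun a => F a + G a) = avg F + avg G := by
  simp [avg, Finset.sum_add_distrib, add_div]

theorem avg_smul (c : ℝ) (F : α → ℝ) : avg (fun a => c * F a) = c * avg F := by
  simp [avg, ← Finset.mul_sum, mul_div_assoc]

theorem avg_zero : avg (fun _ : α => (0 : ℝ)) = 0 := by
  simp [avg]

theorem avg_sum {γ : Type} [Fintype γ] (F : γ → α → ℝ) :
    avg (fun a => ∑ c, F c a) = ∑ c, avg (F c) := by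
  simp only [avg, Finset.sum_div]
  rw [Finset.sum_comm]

theorem avg_equiv (e : α ≃ β) (F : β → ℝ) : avg (fun a => F (e a)) = avg F := by
  unfold avg
  rw [Equiv.sum_comp e F, Fintype.card_congr e]

theorem avg_one [Nonempty α] : avg (fun _ : α => (1 : ℝ)) = 1 := by
  have h : (Fintype.card α : ℝ) ≠ 0 := by exact_mod_cast Fintype.card_ne_zero
  simp [avg, Finset.card_univ, h]

/-- Independence of blocks. -/
theorem avg_prod {κ : Type} [Fintype κ] [DecidableEq κ] [Nonempty α] (φ : κ → α → ℝ) :
    avg (fun y : κ → α => ∏ k, φ k (y k)) = ∏ k, avg (φ k) := by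
  unfold avg
  rw [Finset.prod_div_distrib, Finset.prod_univ_sum, Fintype.piFinset_univ]
  congr 1
  simp [Finset.card_univ]

end Avg

section Block

variable {κ α : Type} [Fintype κ] [DecidableEq κ] [Fintype α] [Nonempty α]

theorem block0 (A : α → ℝ) (hA : avg A = 0) (T : Finset κ) :
    avg (fun y : κ → α => ∏ k ∈ T, A (y k)) = if T = ∅ then 1 else 0 := by
  have h1 : (fun y : κ → α => ∏ k ∈ T, A (y k)) =
      fun y : κ → α => ∏ k, (fun k a => if k ∈ T then A a else 1) k (y k) := by
    funext y
    simp [Finset.prod_ite_mem]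
  rw [h1]
  refine (avg_prod (fun k a => if k ∈ T then A a else 1)).trans ?_
  split_ifs with hT
  · subst hT
    simp [avg_one]
  · obtain ⟨k, hk⟩ := Finset.nonempty_iff_ne_empty.mpr hT
    apply Finset.prod_eq_zero (Finset.mem_univ k)
    simp [hk, hA]

theorem block1 (A B : α → ℝ) (hA : avg A = 0) (hB : avg B = 0) (T : Finset κ) (k0 : κ) :
    avg (fun y : κ → α => (∏ k ∈ T, A (y k)) * B (y k0)) =
      if T = {k0} then avg (fun a => A a * B a) else 0 := by
  have h1 : (fun y : κ → α => (∏ k ∈ T, A (y k)) * B (y k0)) =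
      fun y : κ → α => ∏ k, (fun k a => (if k ∈ T then A a else 1) * (if k = k0 then B a else 1)) k (y k) := by
    funext y
    show _ = ∏ k, ((if k ∈ T then A (y k) else 1) * (if k = k0 then B (y k) else 1))
    rw [Finset.prod_mul_distrib]
    congr 1
    · simp [Finset.prod_ite_mem]
    · simp [Finset.prod_ite_eq']
  rw [h1]
  refine (avg_prod (fun k a => (if k ∈ T then A a else 1) * (if k = k0 then B a else 1))).trans ?_
  split_ifs with hT
  · subst hT
    rw [Finset.prod_eq_single k0]
    · simp
    · intro k _ hk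
      simp [hk, avg_one]
    · simp
  · by_cases hk0 : k0 ∈ T
    · have : ∃ k ∈ T, k ≠ k0 := by
        by_contra hcon
        apply hT
        ext x
        simp only [Finset.mem_singleton]
        refine ⟨fun hx => ?_, fun h => h ▸ hk0⟩
        by_contra hne
        exact hcon ⟨x, hx, hne⟩
      obtain ⟨k, hk, hne⟩ := this
      apply Finset.prod_eq_zero (Finset.mem_univ k)
      simp [hk, hne, hA]
    · apply Finset.prod_eq_zero (Finset.mem_univ k0)
      simp [hk0, hB]

end Block

theorem sgn_mul_self (b : Bool) : sgn b * sgn b = 1 := by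
  cases b <;> simp [sgn]

theorem avg_sgn_bool : avg sgn = 0 := by
  simp [avg, sgn]

theorem avg_sgn_sq : avg (fun a : Bool => sgn a * sgn a) = 1 := by
  simp [sgn_mul_self, avg]

theorem avg_coord {ι : Type} [Fintype ι] [DecidableEq ι] (i : ι) :
    avg (fun z : ι → Bool => sgn (z i)) = 0 := by
  have := block0 (κ := ι) (α := Bool) sgn avg_sgn_bool {i}
  simpa using this

/-- Composition of Boolean functions with disjoint blocks of variables. -/
def comp {κ ι : Type} (g : (κ → Bool) → Bool) (h : (ι → Bool) → Bool) : (κ × ι → Bool) → Bool :=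
  fun y => g (fun k => h (fun i => y (k, i)))

section Span

variable {ι : Type} [DecidableEq ι]

/-- Functions of degree at most `d`. -/
def P (ι : Type) (d : ℕ) : Submodule ℝ ((ι → Bool) → ℝ) :=
  Submodule.span ℝ {g : (ι → Bool) → ℝ | ∃ S : Finset ι, S.card ≤ d ∧ g = chi S}

theorem P_mono {a b : ℕ} (hab : a ≤ b) : P ι a ≤ P ι b := by
  apply Submodule.span_mono
  rintro g ⟨S, hS, rfl⟩
  exact ⟨S, hS.trans hab, rfl⟩

theorem chi_mem {S : Finset ι} {d : ℕ} (h : S.card ≤ d) : chi S ∈ P ι d :=
  Submodule.subset_span ⟨S, h, rfl⟩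

theorem chi_insert_mul (a : ι) (S S' : Finset ι) (ha : a ∉ S) :
    (fun x => chi (insert a S) x * chi S' x) =
      fun x => chi S x * chi (if a ∈ S' then S'.erase a else insert a S') x := by
  funext x
  unfold chi
  rw [Finset.prod_insert ha]
  split_ifs with h
  · rw [← Finset.mul_prod_erase S' _ h]
    have := sgn_mul_self (x a)
    calc (sgn (x a) * ∏ i ∈ S, sgn (x i)) * (sgn (x a) * ∏ i ∈ S'.erase a, sgn (x i))
        = (∏ i ∈ S, sgn (x i)) * (sgn (x a) * sgn (x a)) * ∏ i ∈ S'.erase a, sgn (x i) := by
          ring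
      _ = _ := by rw [this]; ring
  · rw [Finset.prod_insert h]
    ring

theorem chi_mul_mem (S : Finset ι) : ∀ (S' : Finset ι),
    (fun x => chi S x * chi S' x) ∈ P ι (S.card + S'.card) := by
  induction S using Finset.induction_on with
  | empty =>
      intro S'
      have : (fun x => chi (∅ : Finset ι) x * chi S' x) = chi S' := by
        funext x; simp [chi]
      rw [this]
      exact chi_mem (by simp)
  | insert a S ha ih =>
      intro S'
      rw [chi_insert_mul a S S' ha, Finset.card_insert_of_notMem ha]
      refine P_mono ?_ (ih _)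
      split_ifs with h
      · have := Finset.card_erase_of_mem h
        have h3 := Finset.card_pos.mpr ⟨a, h⟩
        omega
      · rw [Finset.card_insert_of_notMem h]
        omega

theorem mul_mem_P {a b : ℕ} {F G : (ι → Bool) → ℝ} (hF : F ∈ P ι a) (hG : G ∈ P ι b) :
    (fun x => F x * G x) ∈ P ι (a + b) := by
  unfold P at hF
  induction hF using Submodule.span_induction with
  | mem g hg =>
      obtain ⟨S, hS, rfl⟩ := hg
      unfold P at hG
      induction hG using Submodule.span_induction with
      | mem g' hg' =>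
          obtain ⟨S', hS', rfl⟩ := hg'
          exact P_mono (by omega) (chi_mul_mem S S')
      | zero =>
          have : (fun x => chi S x * (0 : (ι → Bool) → ℝ) x) = 0 := by funext x; simp
          rw [this]; exact Submodule.zero_mem _
      | add u v _ _ hu hv =>
          have : (fun x => chi S x * (u + v) x) = (fun x => chi S x * u x) + (fun x => chi S x * v x) := by
            funext x; simp [mul_add]
          rw [this]; exact Submodule.add_mem _ hu hv
      | smul c u _ hu =>
          have : (fun x => chi S x * (c • u) x) = c • (fun x => chi S x * u x) := by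
            funext x; simp [mul_left_comm]
          rw [this]; exact Submodule.smul_mem _ _ hu
  | zero =>
      have : (fun x => (0 : (ι → Bool) → ℝ) x * G x) = 0 := by funext x; simp
      rw [this]; exact Submodule.zero_mem _
  | add u v _ _ hu hv =>
      have : (fun x => (u + v) x * G x) = (fun x => u x * G x) + (fun x => v x * G x) := by
        funext x; simp [add_mul]
      rw [this]; exact Submodule.add_mem _ hu hv
  | smul c u _ hu =>
      have : (fun x => (c • u) x * G x) = c • (fun x => u x * G x) := by
        funext x; simp [mul_assoc]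
      rw [this]; exact Submodule.smul_mem _ _ hu

end Span

section Comp

variable {κ ι : Type} [DecidableEq κ] [DecidableEq ι]

/-- A function of one block, seen as a function of all variables. -/
theorem block_mem {b : ℕ} {F : (ι → Bool) → ℝ} (hF : F ∈ P ι b) (k : κ) :
    (fun y : κ × ι → Bool => F (fun i => y (k, i))) ∈ P (κ × ι) b := by
  unfold P at hF
  induction hF using Submodule.span_induction with
  | mem g hg =>
      obtain ⟨S, hS, rfl⟩ := hg
      have : (fun y : κ × ι → Bool => chi S (fun i => y (k, i))) =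
          chi (S.map ⟨fun i => (k, i), fun a b h => (Prod.mk.inj h).2⟩) := by
        funext y
        simp only [chi, Finset.prod_map]
        rfl
      rw [this]
      exact chi_mem (by simpa using hS)
  | zero => exact Submodule.zero_mem _
  | add u v _ _ hu hv => exact Submodule.add_mem _ hu hv
  | smul c u _ hu => exact Submodule.smul_mem _ _ hu

theorem prod_mem_P {b : ℕ} {H : (ι → Bool) → ℝ} (hH : H ∈ P ι b) (T : Finset κ) :
    (fun y : κ × ι → Bool => ∏ k ∈ T, H (fun i => y (k, i))) ∈ P (κ × ι) (T.card * b) := by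
  induction T using Finset.induction_on with
  | empty =>
      have : (fun y : κ × ι → Bool => ∏ k ∈ (∅ : Finset κ), H (fun i => y (k, i))) = chi ∅ := by
        funext y; simp [chi]
      rw [this]
      exact chi_mem (by simp)
  | insert a T ha ih =>
      have : (fun y : κ × ι → Bool => ∏ k ∈ insert a T, H (fun i => y (k, i))) =
          fun y => H (fun i => y (a, i)) * ∏ k ∈ T, H (fun i => y (k, i)) := by
        funext y; rw [Finset.prod_insert ha]
      rw [this, Finset.card_insert_of_notMem ha]
      have h2 := mul_mem_P (block_mem hH a) ih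
      have h3 : b + T.card * b = (T.card + 1) * b := by ring
      rwa [h3] at h2

/-- Degree of a composition. -/
theorem comp_deg {g : (κ → Bool) → Bool} {h : (ι → Bool) → Bool} {a b : ℕ}
    (hg : DegLE g a) (hh : DegLE h b) : DegLE (comp g h) (a * b) := by
  have hH : (fun z => sgn (h z)) ∈ P ι b := hh
  have key : ∀ G : (κ → Bool) → ℝ, G ∈ P κ a →
      (fun y : κ × ι → Bool => G (fun k => h (fun i => y (k, i)))) ∈ P (κ × ι) (a * b) := by
    intro G hG
    unfold P at hG
    induction hG using Submodule.span_induction with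
    | mem g' hg' =>
        obtain ⟨T, hT, rfl⟩ := hg'
        have := prod_mem_P hH T
        refine P_mono (Nat.mul_le_mul_right b hT) ?_
        simpa [chi] using this
    | zero => exact Submodule.zero_mem _
    | add u v _ _ hu hv => exact Submodule.add_mem _ hu hv
    | smul c u _ hu => exact Submodule.smul_mem _ _ hu
  exact key _ hg

end Comp

section Level

variable {κ ι : Type} [Fintype κ] [DecidableEq κ] [Fintype ι] [DecidableEq ι]

/-- Sums over `κ × ι → Bool` become sums over blocks. -/
theorem avg_curry (F : (κ → ι → Bool) → ℝ) :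
    avg (fun y : κ × ι → Bool => F (fun k i => y (k, i))) = avg F :=
  avg_equiv (Equiv.curry κ ι Bool) F

theorem comp_balanced_aux {h : (ι → Bool) → Bool} (hh : Balanced h) {a : ℕ}
    (G : (κ → Bool) → ℝ) (hG : G ∈ P κ a) :
    avg (fun y : κ × ι → Bool => G (fun k => h (fun i => y (k, i)))) = avg G := by
  unfold P at hG
  induction hG using Submodule.span_induction with
  | mem g' hg' =>
      obtain ⟨T, -, rfl⟩ := hg'
      have h1 := avg_curry (κ := κ) (ι := ι) (fun y' => ∏ k ∈ T, sgn (h (y' k)))
      have h2 := block0 (κ := κ) (fun z : ι → Bool => sgn (h z)) hh T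
      have h3 := block0 (κ := κ) sgn avg_sgn_bool T
      simp only [chi]
      rw [h1, h2]
      exact h3.symm
  | zero => simp [avg]
  | add u v _ _ hu hv =>
      simp only [Pi.add_apply]
      rw [avg_add, hu, hv]
      exact (avg_add u v).symm
  | smul c u _ hu =>
      simp only [Pi.smul_apply, smul_eq_mul]
      rw [avg_smul, hu]
      exact (avg_smul c u).symm

theorem comp_balanced {g : (κ → Bool) → Bool} {h : (ι → Bool) → Bool} {a : ℕ}
    (hg0 : DegLE g a) (hg : Balanced g) (hh : Balanced h) : Balanced (comp g h) := by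
  have := comp_balanced_aux hh (fun x => sgn (g x)) hg0
  exact this.trans hg

theorem comp_level_aux {h : (ι → Bool) → Bool} (hh : Balanced h) {a : ℕ}
    (G : (κ → Bool) → ℝ) (hG : G ∈ P κ a) (k0 : κ) (i0 : ι) :
    avg (fun y : κ × ι → Bool => G (fun k => h (fun i => y (k, i))) * sgn (y (k0, i0))) =
      avg (fun x : κ → Bool => G x * sgn (x k0)) * avg (fun z : ι → Bool => sgn (h z) * sgn (z i0)) := by
  unfold P at hG
  induction hG using Submodule.span_induction with
  | mem g' hg' =>
      obtain ⟨T, -, rfl⟩ := hg'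
      have h1 := avg_curry (κ := κ) (ι := ι)
        (fun y' => (∏ k ∈ T, sgn (h (y' k))) * (fun z : ι → Bool => sgn (z i0)) (y' k0))
      have h2 := block1 (κ := κ) (fun z : ι → Bool => sgn (h z)) (fun z : ι → Bool => sgn (z i0))
        hh (avg_coord i0) T k0
      have h3 := block1 (κ := κ) sgn sgn avg_sgn_bool avg_sgn_bool T k0
      simp only [chi]
      rw [h1, h2, h3]
      split_ifs
      · rw [avg_sgn_sq, one_mul]
      · rw [zero_mul]
  | zero => simp [avg]
  | add u v _ _ hu hv =>
      simp only [Pi.add_apply, add_mul]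
      rw [avg_add, hu, hv, avg_add, add_mul]
  | smul c u _ hu =>
      simp only [Pi.smul_apply, smul_eq_mul, mul_assoc]
      rw [avg_smul, hu, avg_smul, mul_assoc]

/-- The level-one sum is multiplicative when the inner function is balanced. -/
theorem comp_level {g : (κ → Bool) → Bool} {h : (ι → Bool) → Bool} {a : ℕ}
    (hg0 : DegLE g a) (hh : Balanced h) :
    levelOneSum (comp g h) = levelOneSum g * levelOneSum h := by
  have hg1 : levelOneSum g = ∑ k, avg (fun x : κ → Bool => sgn (g x) * sgn (x k)) := by
    unfold levelOneSum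
    rw [← avg_sum]
    congr 1
    funext x
    rw [Finset.mul_sum]
  have hh1 : levelOneSum h = ∑ i, avg (fun z : ι → Bool => sgn (h z) * sgn (z i)) := by
    unfold levelOneSum
    rw [← avg_sum]
    congr 1
    funext x
    rw [Finset.mul_sum]
  have hc1 : levelOneSum (comp g h) = ∑ k, ∑ i,
      avg (fun y : κ × ι → Bool => sgn (comp g h y) * sgn (y (k, i))) := by
    unfold levelOneSum
    have : (fun x : κ × ι → Bool => sgn (comp g h x) * ∑ p, sgn (x p)) =
        fun x => ∑ k, ∑ i, sgn (comp g h x) * sgn (x (k, i)) := by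
      funext x
      rw [Fintype.sum_prod_type, Finset.mul_sum]
      apply Finset.sum_congr rfl
      intro k _
      rw [Finset.mul_sum]
    rw [this, avg_sum]
    apply Finset.sum_congr rfl
    intro k _
    rw [avg_sum]
  rw [hc1, hg1, hh1, Finset.sum_mul_sum]
  apply Finset.sum_congr rfl
  intro k _
  apply Finset.sum_congr rfl
  intro i _
  exact comp_level_aux hh (fun x => sgn (g x)) hg0 k i

end Level

section Reindex

variable {ι ι' : Type} [Fintype ι] [DecidableEq ι] [Fintype ι'] [DecidableEq ι']

/-- Renaming of variables. -/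
def reindex (e : ι ≃ ι') (f : (ι → Bool) → Bool) : (ι' → Bool) → Bool :=
  fun y => f (fun i => y (e i))

/-- The renaming of variables on inputs. -/
def inputEquiv (e : ι ≃ ι') : (ι' → Bool) ≃ (ι → Bool) :=
  Equiv.arrowCongr e.symm (Equiv.refl Bool)

theorem reindex_level (e : ι ≃ ι') (f : (ι → Bool) → Bool) :
    levelOneSum (reindex e f) = levelOneSum f := by
  unfold levelOneSum
  have : (fun x : ι' → Bool => sgn (reindex e f x) * ∑ i, sgn (x i)) =
      fun x => (fun w : ι → Bool => sgn (f w) * ∑ i, sgn (w i)) (inputEquiv e x) := by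
    funext x
    have h1 : (∑ i, sgn (x i)) = ∑ i, sgn (x (e i)) := (Equiv.sum_comp e _).symm
    rw [h1]
    rfl
  rw [this]
  exact avg_equiv (inputEquiv e) (fun w : ι → Bool => sgn (f w) * ∑ i, sgn (w i))

theorem reindex_balanced (e : ι ≃ ι') {f : (ι → Bool) → Bool} (hf : Balanced f) :
    Balanced (reindex e f) := by
  unfold Balanced at hf ⊢
  have : (fun x : ι' → Bool => sgn (reindex e f x)) =
      fun x => (fun w : ι → Bool => sgn (f w)) (inputEquiv e x) := rfl
  rw [this]
  exact (avg_equiv (inputEquiv e) _).trans hf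

theorem reindex_deg (e : ι ≃ ι') {f : (ι → Bool) → Bool} {d : ℕ} (hf : DegLE f d) :
    DegLE (reindex e f) d := by
  have key : ∀ G : (ι → Bool) → ℝ, G ∈ P ι d →
      (fun y : ι' → Bool => G (fun i => y (e i))) ∈ P ι' d := by
    intro G hG
    unfold P at hG
    induction hG using Submodule.span_induction with
    | mem g' hg' =>
        obtain ⟨S, hS, rfl⟩ := hg'
        have : (fun y : ι' → Bool => chi S (fun i => y (e i))) = chi (S.map e.toEmbedding) := by
          funext y
          simp [chi]
        rw [this]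
        exact chi_mem (by simpa using hS)
    | zero => exact Submodule.zero_mem _
    | add u v _ _ hu hv => exact Submodule.add_mem _ hu hv
    | smul c u _ hu => exact Submodule.smul_mem _ _ hu
  exact key _ hf

end Reindex

/-- Iterated composition stays over `Fin`. -/
theorem iterate_exists {n : ℕ} (f : (Fin n → Bool) → Bool) {d : ℕ} (hd : DegLE f d)
    (hb : Balanced f) (t : ℕ) :
    ∃ (m : ℕ) (F : (Fin m → Bool) → Bool), Balanced F ∧ DegLE F (d ^ (t + 1)) ∧
      levelOneSum F = levelOneSum f ^ (t + 1) := by
  induction t with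
  | zero => exact ⟨n, f, hb, by simpa using hd, by simp⟩
  | succ t ih =>
      obtain ⟨m, F, hF1, hF2, hF3⟩ := ih
      refine ⟨n * m, reindex finProdFinEquiv (comp f F), ?_, ?_, ?_⟩
      · exact reindex_balanced _ (comp_balanced hd hb hF1)
      · have := reindex_deg (finProdFinEquiv (m := n) (n := m)) (comp_deg hd hF2)
        have h2 : d * d ^ (t + 1) = d ^ (t + 1 + 1) := by ring
        rwa [h2] at this
      · rw [reindex_level, comp_level hd hF1, hF3]
        ring

theorem sqrt_pow_cast (d t : ℕ) : Real.sqrt ((d ^ t : ℕ) : ℝ) = (Real.sqrt d) ^ t := by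
  have h0 : (0 : ℝ) ≤ d := Nat.cast_nonneg d
  have : ((d ^ t : ℕ) : ℝ) = ((Real.sqrt d) ^ t) ^ 2 := by
    rw [← pow_mul, mul_comm, pow_mul, Real.sq_sqrt h0]
    push_cast
    rfl
  rw [this, Real.sqrt_sq (pow_nonneg (Real.sqrt_nonneg _) _)]

/-- The weak form of the Gopalan-Servedio conjecture implies the strong form for balanced functions. -/
theorem weak_implies_strong
    (hweak : ∃ C : ℝ, ∀ (n : ℕ) (f : (Fin n → Bool) → Bool) (d : ℕ),
      DegLE f d → levelOneSum f ≤ C * Real.sqrt d)
    {n : ℕ} (f : (Fin n → Bool) → Bool) {d : ℕ} (hb : Balanced f) (hd : DegLE f d) :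
    levelOneSum f ≤ Real.sqrt d := by
  obtain ⟨C, hC⟩ := hweak
  by_cases hd0 : d = 0
  · subst hd0
    have := hC n f 0 hd
    simpa using this
  by_contra hcon
  rw [not_le] at hcon
  have hs : 0 < Real.sqrt d := Real.sqrt_pos.mpr (by exact_mod_cast Nat.pos_of_ne_zero hd0)
  set r := levelOneSum f / Real.sqrt d with hr
  have hr1 : 1 < r := by
    rw [hr, one_lt_div hs]
    exact hcon
  obtain ⟨k, hk⟩ := pow_unbounded_of_one_lt C hr1
  obtain ⟨m, F, -, hF2, hF3⟩ := iterate_exists f hd hb k
  have h1 := hC m F _ hF2
  rw [hF3, sqrt_pow_cast] at h1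
  have h2 : levelOneSum f = r * Real.sqrt d := by
    rw [hr]; field_simp
  rw [h2, mul_pow] at h1
  have h3 : 0 < Real.sqrt d ^ (k + 1) := pow_pos hs _
  have h4 : r ^ (k + 1) ≤ C := le_of_mul_le_mul_right h1 h3
  have h5 : r ^ k < r ^ (k + 1) := pow_lt_pow_right₀ hr1 (Nat.lt_succ_self k)
  linarith

end Vale.Agent.GS
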